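import Crest.Agent.X262.Res.Blow
import Crest.Agent.X277.Res.G1e
import Crest.Agent.X277.Res.DestGl
import Crest.Agent.X262.Res.Defs
import Crest.Agent.X277.Res.EmbGlob
import Crest.Agent.X262.Res.Wt
import Crest.Agent.X277.Res.FinOut
import Crest.Agent.X277.Res.FinLoc
import Crest.Agent.X277.Res.Start
import Crest.Agent.X277.Res.G1d

-- ▼ part X262/Res/Loop
section

/-!
# Row 262, squad RES+: the loop of phase 0 (helper64; port of `X277/Res/G1d`)
-/

set_option autoImplicit false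
set_option linter.unusedSectionVars false
set_option linter.style.haveILetI false

noncomputable section

namespace Crest.Agent.X262.Res

open Crest.Agent.X277.Res AddMonoidAlgebra Gr Filter

/-- the centre can be generated by weight vectors -/
def CentreEV (k : Type) [Field k] : Prop :=
  ∀ (C F : Type) [Field C] [Algebra k C] [Field F] [Algebra k F] (S : Subalgebra k C)
    (π : S →ₐ[k] F) (N : ℕ) (y : Fin (N + 1) → C) (B : Set (Fin (N + 1))) (d : ℕ)
    (s : kˣ →* (C ≃ₐ[k] C)) (_ : G1.Tools k C MM) (X : Mod π y B d) (I : Finset (GA C MM))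
    (_ : G1.Setup X.good {q | X.IsPt q} X.ε (I : Set (GA C MM)) (fresh C X.ρ) d)
    (_ : Eqv s X) (_ : ∀ f ∈ I, EV s f) (w : Fin d → ℚ) (t : Fin d → Bool) (_ : Allowed w)
    (_ : G1.Bound X.good {q | X.IsPt q} X.ε (I : Set (GA C MM)) w t),
    ∃ (a : ℕ) (W : Fin d → ℕ) (n : ℕ) (g : Fin n → GA C MM) (e : Fin n → ℕ),
      G1.Centre X.good {q | X.IsPt q} X.ε (I : Set (GA C MM)) (fresh C X.ρ) w t a W g e ∧
        ∀ j, EV s (g j)

namespace Lp

open G1 hiding exists_onP notMem_span_InP setup_of_emb mem_m_of_onP stop_of blowIn_of sub_mem_M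
  blow_of cp_mul_chi_mem emb_of drop_of loopStmt_of

variable {k C F : Type} [Field k] [Field C] [Algebra k C] [Field F] [Algebra k F]
variable {S : Subalgebra k C} {π : S →ₐ[k] F} {N : ℕ} {y : Fin (N + 1) → C}
  {B : Set (Fin (N + 1))} {d : ℕ}

/-- the strict transform is not empty -/
theorem exists_onP [IsAlgClosed k] (hr : Red S π y) (X : Mod π y B d) :
    ∃ q, X.IsPt q ∧ OnP X q := by
  obtain ⟨n, hn, τ, -, c, hc, hv⟩ := X.prop ⊤ fun _ => trivial
  have hc0 : π c ≠ 0 := by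
    intro h0
    rw [h0, map_zero, zero_pow hn.ne', zero_mul] at hv
    exact zero_ne_one hv
  have hN : NotP π (single X.θ (c : C) : GA C MM) := ⟨_, c, rfl, hc0⟩
  have hR := (X.hs_mem _ hc).1
  haveI := (Subalgebra.fg_iff_finiteType X.R).1 X.fg
  by_contra hcon
  obtain ⟨m, hm⟩ := nullstellensatz (k := k) (I := PI hr X.toPre) (g := ⟨_, hR⟩) fun q hq => by
    have h1 : ¬ OnP X q := fun h => hcon ⟨q, ⟨_, hc, hR, hq⟩, h⟩
    unfold OnP at h1
    push Not at h1
    obtain ⟨f, hf, hfR, hq'⟩ := h1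
    exact ⟨⟨f, hfR⟩, mem_PI_of_InP hr X.toPre hf, hq'⟩
  exact notMem_PI_of_NotP hr X.toPre (f := ⟨_, hR⟩ ^ m) (NotP_pow hN m) hm

/-- at a point of the strict transform an element with nonzero reduction is not in the local
ideal of the variety -/
theorem notMem_span_InP (hr : Red S π y) (X : Mod π y B d) {q : X.R →ₐ[k] k} (hq : OnP X q)
    {b : GA C MM} (hb : b ∈ X.R) (hN : NotP π b) :
    b ∉ Submodule.span (X.loc q).O {f | f ∈ X.R ∧ InP π f} := by
  intro h
  have h1 : b ∈ amb ((PI hr X.toPre).map (incl X.R q)) := by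
    rw [amb_map_incl]
    refine Submodule.span_mono ?_ h
    rintro f ⟨hf, hP⟩
    exact ⟨⟨f, hf⟩, mem_PI_of_InP hr X.toPre hP, rfl⟩
  obtain ⟨β, hβ, hqβ, h2⟩ := (incl_mem_map (a := ⟨b, hb⟩)).1
    ((coe_mem_amb (f := incl X.R q ⟨b, hb⟩)).1 h1)
  rcases inP_or_notP hr X.toPre β.2 hβ with h3 | h3
  · exact hq _ h3 ⟨β.2, hqβ⟩
  · have h4 : NotP π ((β * ⟨b, hb⟩ : X.R) : GA C MM) := by
      rw [MulMemClass.coe_mul]; exact NotP_mul h3 hN
    exact notMem_PI_of_NotP hr X.toPre h4 h2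

theorem setup_of_emb (X : Mod π y B d) {I : Finset (GA C MM)} (hE : Emb X I) :
    Setup X.good {q | X.IsPt q} X.ε (I : Set (GA C MM)) (fresh C X.ρ) d where
  isOpen := by
    rintro q ⟨h, hh, hR, hq⟩
    filter_upwards [eventually_ne_zero (g := ⟨h, hR⟩) ⟨_, (X.hs_mem h hh).2⟩ hq] with q' hq'
    exact ⟨h, hh, hR, hq'⟩
  ε_ne := NotP_ne_zero X.ε_notP
  ε_hom := NotP_isH X.ε_notP
  fin := I.finite_toSet
  mem := fun f hf => ⟨(hE.I_mem f hf).1, InP_isH (hE.I_mem f hf).2⟩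
  coord := X.coord

theorem mem_m_of_onP (X : Mod π y B d) {q : X.R →ₐ[k] k} (hq : OnP X q) {f : GA C MM}
    (hf : f ∈ X.R) (hP : InP π f) : f ∈ (X.loc q).m := by
  by_contra h
  exact hq f hP ((X.notMem_loc_m hf (InP_isH hP)).1 h)

section Step

variable {X : Mod π y B d} {I : Finset (GA C MM)} {w : Fin d → ℚ} {t : Fin d → Bool} {a : ℕ}
  {W : Fin d → ℕ} {n : ℕ} {g : Fin n → GA C MM} {e : Fin n → ℕ}

/-- the loop stops when the centre contains the strict transform -/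
theorem stop_of (hP : PrimeStmt k C MM) (hr : Red S π y) (hE : Emb X I)
    (Z : Centre X.good {q | X.IsPt q} X.ε (I : Set (GA C MM)) (fresh C X.ρ) w t a W g e)
    (h1 : ∀ j, e j = 1 → InP π (g j)) : Stop X {i | 0 < w i} := by
  intro q hq hon
  rcases Z.cases q hq with ⟨c, hc, hp, -, hx⟩ | ⟨⟨i, hi, hm⟩, -⟩
  · have hle : Submodule.span (X.loc q).O (c.x '' {i | 0 < w i}) ≤
        Submodule.span (X.loc q).O {f | f ∈ X.R ∧ InP π f} := by
      refine Submodule.span_le.2 ?_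
      rintro _ ⟨i, hi, rfl⟩
      refine Submodule.span_mono ?_ (Z.x_mem_one hx i (Z.W_pos.2 hi))
      rintro _ ⟨j, hj, rfl⟩
      exact ⟨Z.g_mem j, h1 j hj⟩
    refine ⟨c, le_antisymm hle (Submodule.span_le.2 ?_)⟩
    rintro f ⟨hf, hfP⟩
    obtain ⟨b, hb, hbN, hbf⟩ := hE.gen f hf hfP
    have h2 : b * f ∈ Submodule.span (X.loc q).O (c.x '' {i | 0 < w i}) := by
      refine span_mono_alg (le_loc q) (fun f' hf' => ?_) hbf
      exact filt_le_sub (N := Submodule.span (X.loc q).O (c.x '' {i | 0 < w i})) hc.shape.mem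
        (fun i hi => Submodule.subset_span ⟨i, hi, rfl⟩) one_pos (hp.adm f' hf')
    rcases hP _ _ _ _ c {i | 0 < w i} b (le_loc q hb) f (le_loc q hf) (NotP_isH hbN)
      (InP_isH hfP) h2 with h3 | h3
    · exact absurd (hle h3) (notMem_span_InP hr X hon hb hbN)
    · exact h3
  · exact absurd (mem_m_of_onP X hon (Z.g_mem i) (h1 i hi)) hm

theorem fam_mem
    (Z : Centre X.good {q | X.IsPt q} X.ε (I : Set (GA C MM)) (fresh C X.ρ) w t a W g e) :
    ∀ p ∈ fam g e, p.1 ∈ X.R ∧ IsH p.1 ∧ 0 < p.2 := fun p hp => by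
  obtain ⟨j, rfl⟩ := mem_fam.1 hp
  exact ⟨Z.g_mem j, Z.g_hom j, Z.e_pos j⟩

/-- as long as the loop does not stop, the centre avoids the good points -/
theorem unit_of_good (hUB : UBStmt k C MM) (hr : Red S π y)
    (Z : Centre X.good {q | X.IsPt q} X.ε (I : Set (GA C MM)) (fresh C X.ρ) w t a W g e)
    (hB : Bound X.good {q | X.IsPt q} X.ε (I : Set (GA C MM)) w t) {j : Fin n} (hj : e j = 1)
    (hN : NotP π (g j)) {q : X.R →ₐ[k] k} (hq : X.IsPt q) (hG : GoodAt X I q) :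
    ∃ p ∈ fam g e, NZ q p.1 := by
  obtain ⟨hon, J, -, hw, hc, hp, hz⟩ := hG
  rcases Z.cases q hq with ⟨c, -, hp', hg, -⟩ | ⟨⟨i, -, hm⟩, -⟩
  · exfalso
    obtain ⟨h1, -, -, h2⟩ := hUB _ _ _ _ d J ⟨c.x, w, t⟩ (NotP_ne_zero X.ε_notP)
      (NotP_isH X.ε_notP) hc hp' (hB q hq J hp)
    have ha : (0 : ℚ) < a := Nat.cast_pos.2 Z.a_pos
    have h3 := hg j
    have h4 : filt (loc X.R q) c.x (fun i => (W i : ℚ)) (e j : ℚ) =
        filt (loc X.R q) c.x w ((e j : ℚ) / a) := by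
      rw [← filt_scale (loc X.R q) c.x ha Z.W_eq, mul_div_cancel₀ _ ha.ne']
    rw [h4] at h3
    have h5 : g j ∈ filt (X.loc q).O J.z J.w ((e j : ℚ) / a) := (h2 _).le h3
    refine notMem_span_InP hr X hon (Z.g_mem j) hN ?_
    exact filt_le_sub (N := Submodule.span (X.loc q).O {f | f ∈ X.R ∧ InP π f}) hc.shape.mem hz
      (div_pos (by rw [hj]; exact_mod_cast one_pos) ha) h5
  · exact ⟨_, mem_fam.2 ⟨i, rfl⟩, (X.notMem_loc_m (Z.g_mem i) (Z.g_hom i)).1 hm⟩

theorem blowIn_of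
    (Z : Centre X.good {q | X.IsPt q} X.ε (I : Set (GA C MM)) (fresh C X.ρ) w t a W g e)
    {j : Fin n} (hj : NotP π (g j)) : BlowIn X (fam g e) where
  mem := fun p hp => by
    obtain ⟨j, rfl⟩ := mem_fam.1 hp
    exact ⟨Z.g_mem j, Z.g_hom j, Z.e_pos j⟩
  ne := ⟨_, mem_fam.2 ⟨j, rfl⟩, hj⟩
  loc := fun q hq => by
    rcases Z.cases q hq with ⟨c, hc, -, hg, hx⟩ | ⟨⟨i, -, hm⟩, -⟩
    · refine Or.inr ⟨c, W, fun p hp => ?_, fun i => ?_⟩
      · obtain ⟨j, rfl⟩ := mem_fam.1 hp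
        exact hg j
      · rcases Nat.eq_zero_or_pos (W i) with h0 | h0
        · rw [h0, pow_zero, mul_one]
          exact Algebra.subset_adjoin (Or.inl (hc.shape.mem i))
        · have : ∀ f ∈ Submodule.span (loc X.R q) {f | ∃ j, e j = W i ∧ f = g j},
              f * chi (-ee X.ρ) ^ W i ∈ Algebra.adjoin k
                (((X.loc q).O : Set (GA C MM)) ∪ newGens X.ρ (fam g e)) := by
            intro f hf
            induction hf using Submodule.span_induction with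
            | mem f hf =>
              obtain ⟨j, hj, rfl⟩ := hf
              rw [← hj]
              exact Algebra.subset_adjoin (Or.inr (Or.inr ⟨(g j, e j), mem_fam.2 ⟨j, rfl⟩, rfl⟩))
            | zero => rw [zero_mul]; exact zero_mem _
            | add a b _ _ ha hb => rw [add_mul]; exact add_mem ha hb
            | smul r a _ ha =>
              rw [smul_mul_assoc]
              exact mul_mem (Algebra.subset_adjoin (Or.inl r.2)) ha
          exact this _ (Z.x_mem hx i h0)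
    · exact Or.inl ⟨_, mem_fam.2 ⟨i, rfl⟩, (X.notMem_loc_m (Z.g_mem i) (Z.g_hom i)).1 hm⟩

variable {X' : Mod π y B d}

theorem sub_mem_M (hB : IsBlow X X' (fam g e)) {μ : MM} (hμ : μ ∈ X'.M) :
    μ - μ X.ρ • ee X.ρ ∈ X.M := by
  rw [hB.M] at hμ
  obtain ⟨ν, hν, _, ⟨m, rfl⟩, rfl⟩ := AddSubgroup.mem_sup.1 hμ
  have : (ν + m • ee X.ρ) X.ρ = m := by
    rw [Finsupp.add_apply, X.M_supp ν hν _ le_rfl, Finsupp.smul_apply, ee_apply_self]; simp
  rw [this, add_sub_cancel_right]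
  exact hν

theorem blow_of (hB : IsBlow X X' (fam g e)) :
    Blow X.good X'.good (fresh C X.ρ) (fresh C X'.ρ) g e (ee X.ρ) (Finsupp.applyAddHom X.ρ) where
  le := Algebra.adjoin_mono (by rw [hB.gens]; exact Set.subset_union_left)
  S_mem := fun f hf => Algebra.subset_adjoin (by rw [hB.gens, newGens_fam]; exact Or.inr hf)
  gen := Algebra.adjoin_mono (by
    rw [hB.gens, newGens_fam]
    exact Set.union_subset_union_left _ Algebra.subset_adjoin)
  fresh := fun q q' =>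
    { φσ := ee_apply_self _
      φM := fun μ hμ => X.M_supp μ hμ _ le_rfl
      mem := ⟨_, fun m hm => ee_apply_ne hm.ne, rfl⟩
      sub := by
        rintro _ ⟨μ, hμ, rfl⟩
        rw [hB.ρ] at hμ
        exact ⟨⟨μ, fun m hm => hμ m (hm.trans (Nat.lt_succ_self _)), rfl⟩, μ, ⟨1, rfl⟩,
          hμ _ (Nat.lt_succ_self _)⟩
      M' := fun μ hμ => sub_mem_M hB hμ }

theorem emb_of (hE : Emb X I)
    (Z : Centre X.good {q | X.IsPt q} X.ε (I : Set (GA C MM)) (fresh C X.ρ) w t a W g e)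
    (hB : IsBlow X X' (fam g e)) : Emb X' (trans I X.ρ a) := by
  have Bl := blow_of hB
  have hs : (chi (ee X.ρ) : GA C MM) ∈ X'.R := Bl.S_mem _ (Or.inl rfl)
  refine ⟨fun f hf => ?_, fun f hf hP => ?_, fun m hm => ?_, fun μ hμ => ?_⟩
  · obtain ⟨f₀, hf₀, rfl⟩ := mem_trans.1 hf
    refine ⟨Z.transform_mem Bl hf₀, ?_⟩
    rw [chi_pow]
    exact InP_mul_chi (hE.I_mem f₀ hf₀).2 _
  · obtain ⟨μ, hμ⟩ := InP_isH hP
    have h1 := Res.cp_mul_chi_mem hB.gens (fam_mem Z) hf μ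
    rw [HomD.cp_self hμ] at h1
    obtain ⟨b, hb, hbN, hbf⟩ := hE.gen _ h1 (InP_mul_chi hP _)
    have h2 : b * (f * chi (-(μ X.ρ • ee X.ρ))) ∈
        Submodule.span X'.R (trans I X.ρ a : Set (GA C MM)) := by
      refine span_mono_alg Bl.le (fun f₀ hf₀ => ?_) hbf
      have h3 : f₀ = chi (ee X.ρ) ^ a * (f₀ * chi (-ee X.ρ) ^ a) := by
        rw [mul_left_comm, chi_pow_mul, mul_one]
      rw [h3]
      exact G1.mul_mem_sub (pow_mem hs a) (Submodule.subset_span (mem_trans.2 ⟨f₀, hf₀, rfl⟩))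
    refine ⟨b * chi (ee X.ρ) ^ (μ X.ρ).natAbs, mul_mem (Bl.le hb) (pow_mem hs _),
      NotP_mul hbN (NotP_pow (NotP_chi _) _), ?_⟩
    have h4 : b * chi (ee X.ρ) ^ (μ X.ρ).natAbs * f =
        chi (ee X.ρ) ^ ((μ X.ρ).natAbs + μ X.ρ).toNat * (b * (f * chi (-(μ X.ρ • ee X.ρ)))) := by
      have h5 : (chi (ee X.ρ) : GA C MM) ^ (μ X.ρ).natAbs =
          chi (ee X.ρ) ^ ((μ X.ρ).natAbs + μ X.ρ).toNat * chi (-(μ X.ρ • ee X.ρ)) := by
        rw [chi_pow, chi_pow, chi_add', ← natCast_zsmul, ← natCast_zsmul,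
          Int.toNat_of_nonneg (by omega), add_smul, add_neg_cancel_right]
      rw [h5]; ring
    rw [h4]
    exact G1.mul_mem_sub (pow_mem hs _) h2
  · rw [hB.ρ] at hm
    rcases (Nat.lt_succ_iff.1 hm).lt_or_eq with h1 | rfl
    · exact Bl.le (hE.chi_mem m h1)
    · exact hs
  · rw [hB.ρ] at hμ
    rw [hB.M, ← sub_add_cancel μ (μ X.ρ • ee X.ρ)]
    refine AddSubgroup.add_mem_sup (hE.full _ fun m hm => ?_) ⟨μ X.ρ, rfl⟩
    rw [Finsupp.sub_apply, Finsupp.smul_apply]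
    rcases hm.lt_or_eq with h1 | rfl
    · rw [hμ m h1, ee_apply_ne h1.ne']; simp
    · rw [ee_apply_self]; simp

theorem drop_of (hUB : UBStmt k C MM) (hCB : CertBlowStmt k C MM) (hCU : CertUnitStmt k C MM)
    (hE : Emb X I)
    (Z : Centre X.good {q | X.IsPt q} X.ε (I : Set (GA C MM)) (fresh C X.ρ) w t a W g e)
    (hB : IsBlow X X' (fam g e)) {q' : X'.R →ₐ[k] k} (hq' : X'.IsPt q') {J : Ctr C MM d}
    (hJ : Comp (X'.loc q') X'.ε (trans I X.ρ a : Set (GA C MM)) J) : inv J.w J.t < inv w t := by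
  have Bl := blow_of hB
  obtain ⟨q, hq, hov, p, hp, hnz⟩ := hB.pt q' hq'
  obtain ⟨j, rfl⟩ := mem_fam.1 hp
  rw [hB.ε] at hJ
  refine Z.drop hUB hCB hCU (setup_of_emb X hE) Bl (fun f hf => mem_trans.2 ⟨f, hf, rfl⟩)
    (fun f hf => ((emb_of hE Z hB).I_mem f hf).1) (q' := q') (j := j) ?_ ?_ hJ
  · rw [eq_res Bl.le hov]; exact hq
  · exact (X'.notMem_loc_m hnz.1 (IsH_mul (Z.g_hom j) (IsH_pow (G1.isH_chi _) _))).2 hnz

/-- good points stay good away from the centre -/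
theorem goodAt_unit (hCU : CertUnitStmt k C MM)
    (Z : Centre X.good {q | X.IsPt q} X.ε (I : Set (GA C MM)) (fresh C X.ρ) w t a W g e)
    (hB : IsBlow X X' (fam g e)) {q : X.R →ₐ[k] k} {q' : X'.R →ₐ[k] k} (hl : LiesOver q q')
    (hu : ∃ p ∈ fam g e, NZ q p.1) (hG : GoodAt X I q) : GoodAt X' (trans I X.ρ a) q' := by
  obtain ⟨hon, J, ht, hw, hc, hp, hz⟩ := hG
  obtain ⟨hF, hU, -⟩ := BO.blowOverStmt k C N y X.toPre X'.toPre _ q q' hB.M hB.gens
    (fam_mem Z) hl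
  have hO := hU hu
  have hle : X.R ≤ X'.R := BO.R_le hB.gens
  refine ⟨onP_unit hB (fam_mem Z) hl hu hon, J, ht, hw, ?_, ?_, fun i hi => ?_⟩
  · rw [hB.ε, hB.ρ]
    exact hCU _ _ _ _ _ _ _ d J a _ _ hF hO (fun f hf => mem_trans.2 ⟨f, hf, rfl⟩) hc
  · refine ⟨⟨fun i => hO.le (hp.shape.mem i), hp.shape.hom, hp.shape.nonneg, hp.shape.sorted,
      hp.shape.t_pos⟩, fun i hi => hO.m_le _ (hp.mem_m i hi), fun i hi => ?_, fun f hf => ?_⟩
    · rw [ht i] at hi; exact absurd hi Bool.false_ne_true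
    · obtain ⟨f₀, hf₀, rfl⟩ := mem_trans.1 hf
      refine mul_mem_sub' (pow_mem (hO.S_mem _ (Or.inr rfl)) _) ?_
      exact span_mono_alg hO.le (fun _ h => Submodule.subset_span h) (hp.adm f₀ hf₀)
  · exact span_mono_alg hO.le (fun f hf => Submodule.subset_span
      (show f ∈ {f | f ∈ X'.R ∧ InP π f} from ⟨hle hf.1, hf.2⟩)) (hz i hi)

end Step

end Lp

open G1 Lp in
/-- the loop of phase 0 -/
theorem loopStmt_of (k : Type) [Field k] [IsAlgClosed k] [CharZero k] (hEV : CentreEV k) :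
    LoopStmt k := by
  intro C F _ _ _ _ S π N y B d X I s Gd Ol hr hE hX hI hO hG
  have tl : Tools k C MM := tools k C MM
  refine wf_loop (d := d) (X := {x : Mod π y B d × Finset (GA C MM) // Emb x.1 x.2 ∧ Eqv s x.1 ∧
      (∀ f ∈ x.2, EV s f) ∧ Iso Gd Ol x.1 ∧ Gud Gd x.1 x.2})
    (fun x w t => Top x.1.1.good {q | x.1.1.IsPt q} x.1.1.ε (x.1.2 : Set (GA C MM)) w t) _
    (fun x => ?_) (fun x w t hA hT => ?_) ⟨(X, I), hE, hX, hI, hO, hG⟩
  · obtain ⟨q, hq, hon⟩ := Lp.exists_onP hr x.1.1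
    exact (Lp.setup_of_emb _ x.2.1).exists_Top tl ⟨q, hq, fun f hf =>
      Lp.mem_m_of_onP _ hon (x.2.1.I_mem f hf).1 (x.2.1.I_mem f hf).2⟩
  · obtain ⟨⟨X, I⟩, hE, hX, hI, hO, hG⟩ := x
    obtain ⟨a, W, n, g, e, Z, hg⟩ := hEV C F S π N y B d s tl X I (Lp.setup_of_emb X hE) hX hI
      w t hA hT.1
    by_cases h1 : ∀ j, e j = 1 → InP π (g j)
    · exact Or.inl ⟨X, I, _, hE, Lp.stop_of primeStmt hr hE Z h1, hX, hO⟩
    · push Not at h1
      obtain ⟨j, hj1, hj⟩ := h1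
      have hj' := (inP_or_notP hr X.toPre (Z.g_mem j) (Z.g_hom j)).resolve_left hj
      obtain ⟨X', hB, hX'⟩ := BG.blow X _ hr (Lp.blowIn_of Z hj') hX fun p hp => by
        obtain ⟨i, rfl⟩ := mem_fam.1 hp
        exact hg i
      have hu : ∀ q, X.IsPt q → X.vals q ∈ Gd → ∃ p ∈ fam g e, NZ q p.1 := fun q hq hv =>
        unit_of_good tl.ub hr Z hT.1 hj1 hj' hq (hG q hq hv)
      refine Or.inr ⟨⟨(X', trans I X.ρ a), Lp.emb_of hE Z hB, hX', fun f hf => ?_,
        hO.blow hB (fam_mem Z) hu, fun q' hq' hv => ?_⟩, fun w' t' hT' => ?_⟩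
      · obtain ⟨f₀, hf₀, rfl⟩ := mem_trans.1 hf
        exact (hI f₀ hf₀).mul ((ev_chi _).pow _)
      · obtain ⟨q, hq, hl, -⟩ := hB.pt q' hq'
        rw [vals_eq hl] at hv
        exact goodAt_unit BL.certUnit Z hB hl (hu q hq hv) (hG q hq hv)
      · obtain ⟨q', hq', z, hz⟩ := hT'.2
        exact Lp.drop_of tl.ub BL.certBlow BL.certUnit hE Z hB hq' hz

end Crest.Agent.X262.Res
end
end

-- ▼ part X262/Res/Dest
section

/-!
# Row 262, squad RES+: destackification (helper64; port of `X277/Res/DestMod`, `DestGl`)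
-/

set_option autoImplicit false

noncomputable section

namespace Crest.Agent.X262.Res.Dest

open Crest.Agent.X277.Res hiding chi_mul_neg hom_chi
open AddMonoidAlgebra Gr
open Crest.Agent.X277.Res.Dest hiding exists_hs_ne exists_tight idx_ne_zero verPre_R lift_pt
  exists_verModel_aux exists_verModel blowIn s_notMem coord_ver Mu_unit Mu_ver step Bad
  exists_free destackStmt

variable {k C F : Type} [Field k] [Field C] [Algebra k C] [Field F] [Algebra k F]
variable {S : Subalgebra k C} {π : S →ₐ[k] F} {N : ℕ} {y : Fin (N + 1) → C}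
  {B : Set (Fin (N + 1))} {d : ℕ} {s : kˣ →* (C ≃ₐ[k] C)} {Gd : Set (Fin (N + 1) → k)}
  {Ol : (Fin (N + 1) → k) → Subalgebra k F}

theorem exists_hs_ne (X : Mod π y B d) : ∃ h ∈ X.hs, h ≠ 0 := by
  obtain ⟨n, hn, τ, -, c, hc, h1⟩ := X.prop ⊤ fun _ => trivial
  refine ⟨_, hc, single_ne_zero.2 fun h0 => ?_⟩
  rw [show c = 0 from Subtype.ext h0, map_zero, map_zero, zero_pow hn.ne', zero_mul] at h1
  exact zero_ne_one h1

theorem exists_tight (hr : Red S π y) (X : Mod π y B d) (hX : Eqv s X) (hO : Iso Gd Ol X) :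
    ∃ X' : Mod π y B d, Tight X'.toPre ∧ Eqv s X' ∧ Iso Gd Ol X' := by
  let M0 : AddSubgroup MM := AddSubgroup.closure {μ | ∃ f ∈ X.R, Hom μ f ∧ f ≠ 0}
  have hle : M0 ≤ X.M := (AddSubgroup.closure_le _).2 fun μ ⟨f, hf, hh, h0⟩ =>
    X.deg_mem μ f hf hh h0
  have hM0 : ∀ μ, ∀ f ∈ X.R, Hom μ f → f ≠ 0 → μ ∈ M0 := fun μ f hf hh h0 =>
    AddSubgroup.subset_closure ⟨f, hf, hh, h0⟩
  let P : Pre k C y :=
    { ρ := X.ρ, M := M0, gens := X.gens
      M_supp := fun μ hμ => X.M_supp μ (hle hμ)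
      gens_hom := fun u hu => by
        by_cases h0 : u = 0
        · exact ⟨0, zero_mem _, 0, zero_mem _, by rw [h0, single_zero]⟩
        · obtain ⟨μ, -, c, hc, h⟩ := X.gens_hom u hu
          exact ⟨μ, hM0 μ u (X.gens_mem hu) ⟨c, h⟩ h0, c, hc, h⟩ }
  obtain ⟨h, hh, hh0⟩ := exists_hs_ne X
  refine ⟨{ toPre := P, θ := X.θ, hs := X.hs, ε := X.ε
            θ_mem := hM0 _ h (X.hs_mem h hh).1 (X.hs_mem h hh).2 hh0
            hs_mem := X.hs_mem
            St := fun h hh μ hμ => X.St h hh μ (hle hμ)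
            ε_mem := X.ε_mem
            ε_notP := X.ε_notP
            e0_mem := hM0 _ _ (X.Y_mem 0) ⟨_, rfl⟩ (single_ne_zero.2 (hr.y0 ▸ one_ne_zero))
            Y_mem := X.Y_mem
            Y_dvd := X.Y_dvd
            dom := X.dom
            prop := X.prop
            coord := fun q hq => ⟨shrinkCoord X.good P.good hle (X.coord q hq).some⟩ }, ?_,
    ⟨hX.gens, hX.hs, hX.ε⟩, fun q hq hv =>
      ⟨fun μ hμ => (hO q hq hv).1 μ (hle hμ), (hO q hq hv).2⟩⟩
  exact fun Γ hΓ => (AddSubgroup.closure_le _).2 fun μ ⟨f, hf, hh, h0⟩ => hΓ μ f hf hh h0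

theorem idx_ne_zero {X : Mod π y B d} (h : Tight X.toPre) {q : X.R →ₐ[k] k} (hq : X.IsPt q) :
    (Mu (X.loc q)).relIndex X.M ≠ 0 := by
  obtain ⟨c⟩ := X.coord q hq
  refine relIndex_Mu_ne_zero (L := X.loc q) h.fg fun μ hμ => ?_
  obtain ⟨n, hn, e, he, hm, hh, -⟩ := c.U μ hμ
  exact ⟨n, hn, e, he, hm, hh⟩

section Ver

variable {X : Mod π y B d} {Γ : Finset (GA C MM)} {p : ℕ} {Λ : AddSubgroup MM} {σ : MM}
  (h : Ver X.R X.M (Γ : Set (GA C MM)) p Λ σ)

theorem verPre_R : (verPre X.toPre Γ p Λ σ h).R = ver k Γ p σ := by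
  classical
  unfold Pre.R ver verPre
  rw [Finset.coe_insert]

include h in
theorem lift_pt [IsAlgClosed k] {R : Subalgebra k (GA C MM)} (hR : R = ver k Γ p σ)
    (hg : Good R Λ) (hle : R ≤ X.R) (q' : R →ₐ[k] k) :
    ∃ q, res hle q = q' ∧ locOf hg q' = locOf h.good (res h.ver_le q) := by
  subst hR
  obtain ⟨q, rfl⟩ := h.exists_res q'
  exact ⟨q, rfl, rfl⟩

theorem exists_verModel_aux [IsAlgClosed k] (he : ee 0 ∈ Λ)
    (hc : ∀ q : X.R →ₐ[k] k, X.IsPt q → Nonempty (Coord (locOf h.good (res h.ver_le q))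
      (X.ε ^ p) (fresh C X.ρ) (Fin d))) (P : Pre k C y) (hρ : P.ρ = X.ρ) (hM : P.M = Λ)
      (hR : P.R = ver k Γ p σ) (hX : Eqv s X) (hP : ∀ u ∈ P.gens, EV s u) :
    ∃ X' : Mod π y B d, X'.M = Λ ∧ X'.R = ver k Γ p σ ∧ Eqv s X' ∧
      ∀ q' : X'.R →ₐ[k] k, X'.IsPt q' → ∃ q, X.IsPt q ∧ X'.vals q' = X.vals q ∧
        X'.loc q' = locOf h.good (res h.ver_le q) := by
  classical
  subst hM
  have hin : ∀ {f : GA C MM}, f ∈ ver k Γ p σ → f ∈ P.R := fun hf => by rw [hR]; exact hf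
  have hle : P.R ≤ X.R := by rw [hR]; exact h.ver_le
  have hpow : ∀ {f : GA C MM}, IsH f → f ∈ X.R → f ^ p ∈ P.R := fun hh hf =>
    hin (h.pow_mem_ver hh hf)
  have hlift : ∀ q' : P.R →ₐ[k] k, (∃ g ∈ X.hs.image (· ^ p), NZ q' g) →
      ∃ q, X.IsPt q ∧ res hle q = q' ∧ P.loc q' = locOf h.good (res h.ver_le q) := by
    rintro q' ⟨_, hg0, hg', hq⟩
    obtain ⟨g, hg, rfl⟩ := Finset.mem_image.1 hg0
    obtain ⟨q, h1, h2⟩ := lift_pt h hR P.good hle q'
    refine ⟨q, ⟨g, hg, (X.hs_mem g hg).1, fun h0 => hq ?_⟩, h1, h2⟩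
    rw [← h1, res_apply, show (⟨g ^ p, _⟩ : X.R) = ⟨g, (X.hs_mem g hg).1⟩ ^ p from rfl, map_pow,
      h0, zero_pow h.pos.ne']
  have hY : ∀ j, (single (ee 0) (y j) : GA C MM) ∈ P.R := fun j =>
    hin (h.mem_of_hom ⟨_, rfl⟩ (X.Y_mem j) he)
  have hval : ∀ (q : X.R →ₐ[k] k) (q' : P.R →ₐ[k] k), res hle q = q' →
      ∀ j, q' ⟨_, hY j⟩ = q ⟨_, X.Y_mem j⟩ := by
    rintro q _ rfl j
    exact res_apply hle q _
  obtain ⟨ν, c0, hc0, hc0'⟩ := X.ε_notP
  have hν : p • ν ∈ P.M := h.pM _ (X.deg_mem ν _ X.ε_mem ⟨_, hc0⟩ (notP_hom X.ε_notP).2)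
  have f1 : ∀ g ∈ X.hs.image (· ^ p), g ∈ P.R ∧ Hom (p • X.θ) g := by
    intro g0 hg0
    obtain ⟨g, hg, rfl⟩ := Finset.mem_image.1 hg0
    exact ⟨hpow ⟨_, (X.hs_mem g hg).2⟩ (X.hs_mem g hg).1, HomD.pow (X.hs_mem g hg).2 p⟩
  have f2 : ∀ g ∈ X.hs.image (· ^ p), ∀ μ ∈ P.M, ∃ n : ℕ, 0 < n ∧ ∃ (c c' : ℕ), ∃ w ∈ P.R,
      ∃ w' ∈ P.R, Hom (n • μ + c • p • X.θ) w ∧ IsH w' ∧ w * w' = g ^ c' := by
    intro g0 hg0 μ hμ
    obtain ⟨g, hg, rfl⟩ := Finset.mem_image.1 hg0
    obtain ⟨n, hn, c, c', w, hw, w', hw', h1, h2, h3⟩ := X.St g hg μ (h.le hμ)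
    refine ⟨p * n, Nat.mul_pos h.pos hn, c, c', w ^ p, hpow ⟨_, h1⟩ hw, w' ^ p, hpow h2 hw',
      hom_congr (HomD.pow h1 p) (by module), IsHom.pow h2 p, ?_⟩
    rw [← mul_pow, h3, ← pow_mul, ← pow_mul, mul_comm]
  have f3 : NotP π (X.ε ^ p) := ⟨p • ν, c0 ^ p, by rw [hc0, single_pow]; rfl, by
    rw [map_pow]; exact pow_ne_zero _ hc0'⟩
  have f4 : ∀ j ∈ B, ∃ r ∈ P.R, X.ε ^ p = r * single (ee 0) (y j) := by
    intro j hj
    obtain ⟨r, hr, h1⟩ := X.Y_dvd j hj
    refine ⟨cp (p • ν - ee 0) (X.ε ^ (p - 1) * r), hin (h.mem_of_hom (homD_cp _ _)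
      (X.graded _ (mul_mem (pow_mem X.ε_mem _) hr) _) (P.M.sub_mem hν he)), ?_⟩
    rw [← HomD.cp_mul_right (homD_single (ee 0) (y j)), mul_assoc, ← h1, ← pow_succ,
      Nat.sub_add_cancel h.pos, HomD.cp_self (HomD.pow ⟨_, hc0⟩ p)]
  have f5 : ∀ q : P.R →ₐ[k] k, (∃ g ∈ X.hs.image (· ^ p), NZ q g) →
      ∃ j, NZ q (single (ee 0) (y j)) := by
    intro q' hq'
    obtain ⟨q, hq, rfl, -⟩ := hlift q' hq'
    obtain ⟨j, _, hj⟩ := X.dom q hq
    exact ⟨j, hY j, hj⟩
  have f7 : ∀ V : ValuationSubring F, (∀ c : k, algebraMap k F c ∈ V) →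
      ∃ n : ℕ, 0 < n ∧ ∃ τ : Multiplicative MM →* V.ValueGroup,
        (∀ (μ : MM) (c : S), (single μ (c : C) : GA C MM) ∈ P.R →
          V.valuation (π c) ^ n * τ (Multiplicative.ofAdd μ) ≤ 1) ∧
        ∃ c : S, (single (p • X.θ) (c : C) : GA C MM) ∈ X.hs.image (· ^ p) ∧
          V.valuation (π c) ^ n * τ (Multiplicative.ofAdd (p • X.θ)) = 1 := by
    intro V hV
    obtain ⟨n, hn, τ, h1, c, hc, h2⟩ := X.prop V hV
    refine ⟨n, hn, τ, fun μ c hc => h1 μ c (hle hc), c ^ p,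
      Finset.mem_image.2 ⟨_, hc, by rw [single_pow]; rfl⟩, ?_⟩
    rw [map_pow, map_pow, ofAdd_nsmul, map_pow, ← pow_mul, mul_comm p, pow_mul, ← mul_pow, h2,
      one_pow]
  have f8 : ∀ q : P.R →ₐ[k] k, (∃ g ∈ X.hs.image (· ^ p), NZ q g) →
      Nonempty (Coord (P.loc q) (X.ε ^ p) (fresh C P.ρ) (Fin d)) := by
    intro q' hq'
    obtain ⟨q, hq, -, h1⟩ := hlift q' hq'
    rw [h1, hρ]
    exact hc q hq
  refine ⟨⟨P, p • X.θ, X.hs.image (· ^ p), X.ε ^ p, h.pM _ X.θ_mem, f1, f2,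
    hpow ⟨_, _, hc0⟩ X.ε_mem, f3, he, hY, f4, f5, f7, f8⟩, rfl, hR,
    ⟨hP, fun g hg => ?_, hX.ε.pow p⟩, fun q' hq' => ?_⟩
  · obtain ⟨g, hg', rfl⟩ := Finset.mem_image.1 hg
    exact (hX.hs g hg').pow p
  · obtain ⟨q, hq, h0, h1⟩ := hlift q' hq'
    exact ⟨q, hq, funext fun j => hval q q' h0 j, h1⟩

/-- the Veronese model; `hc` provides the coordinates -/
theorem exists_verModel [IsAlgClosed k] (he : ee 0 ∈ Λ)
    (hc : ∀ q : X.R →ₐ[k] k, X.IsPt q → Nonempty (Coord (locOf h.good (res h.ver_le q))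
      (X.ε ^ p) (fresh C X.ρ) (Fin d))) (hX : Eqv s X) (hΓ : ∀ u ∈ Γ, EV s u) :
    ∃ X' : Mod π y B d, X'.M = Λ ∧ X'.R = ver k Γ p σ ∧ Eqv s X' ∧
      ∀ q' : X'.R →ₐ[k] k, X'.IsPt q' → ∃ q, X.IsPt q ∧ X'.vals q' = X.vals q ∧
        X'.loc q' = locOf h.good (res h.ver_le q) := by
  classical
  refine exists_verModel_aux h he hc (verPre X.toPre Γ p Λ σ h) rfl rfl (verPre_R h) hX ?_
  intro u hu
  rcases Finset.mem_insert.1 hu with rfl | hu
  · exact (ev_chi _).pow p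
  · exact hΓ u hu

end Ver

section Step

variable {X X' : Mod π y B d} {p : ℕ} [NeZero p] {a : X.M →+ ZMod p}

theorem blowIn [CharZero k] (hπ : ∀ f : GA C MM, IsH f → f ≠ 0 → NotP π f) (hT : Tight X.toPre)
    (hp : 1 < p) (ha : Function.Surjective a) : BlowIn X (cen X.toPre a) where
  mem := cen_mem
  ne := by
    obtain ⟨z, hz⟩ := exists_cen hT hp ha
    exact ⟨z, hz, hπ _ (cen_mem z hz).2.1 (mem_cen.1 hz).2.1⟩
  loc := fun q hq => by
    by_cases h : ∃ z ∈ cen X.toPre a, NZ q z.1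
    · exact Or.inl h
    · obtain ⟨c⟩ := X.coord q hq
      exact Or.inr ⟨c, _, shaped taylorStmt (fix_of h) c⟩

omit [NeZero p] in
theorem s_notMem {q : X.R →ₐ[k] k} {q' : X'.R →ₐ[k] k}
    (h : Over (X.loc q) (X'.loc q') {chi (ee X.ρ), chi (-ee X.ρ)}) :
    (chi (ee X.ρ) : GA C MM) ∉ (X'.loc q').m := fun h1 => (X'.loc q').one_notMem (by
  rw [← chi_mul_neg (ee X.ρ), mul_comm]
  exact mul_mem_m _ (h.S_mem _ (Or.inr rfl)) h1)

/-- coordinates on the Veronese model -/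
theorem coord_ver [CharZero k] (hB : IsBlow X X' (cen X.toPre a)) (q' : X'.R →ₐ[k] k)
    (hq' : X'.IsPt q') :
    Nonempty (Coord (locOf (ver_of hB.M hB.gens).good (res (ver_of hB.M hB.gens).ver_le q'))
      (X'.ε ^ p) (fresh C X'.ρ) (Fin d)) := by
  obtain ⟨q, hq, hl, hz⟩ := hB.pt q' hq'
  obtain ⟨hF, hU, hE⟩ := BO.blowOverStmt k C N y X.toPre X'.toPre _ q q' hB.M hB.gens cen_mem hl
  obtain ⟨c⟩ := X.coord q hq
  have hr := (ver_of hB.M hB.gens).rootL q'
  rw [hB.ε, hB.ρ]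
  by_cases h : ∃ z ∈ cen X.toPre a, NZ q z.1
  · obtain ⟨c', -, hD⟩ := BL.unitLoc _ _ _ _ _ _ c _ _ hF (hU h)
    exact root2 c' hr (s_notMem (hU h)) fun i => by rw [hD]; exact c.kills i _ hF.mem
  · obtain ⟨hO, h1⟩ := hE _ c.x _ (x_mem_m c) (fun i => ⟨_, c.hom i⟩)
      (shaped taylorStmt (fix_of h) c)
    obtain ⟨hs, i0, hi0, hx⟩ := h1 hz
    obtain ⟨c', h2, h3⟩ := BL.blowLoc _ _ _ _ _ _ c _ _ _ i0 hF hO hs hi0 hx
    refine root1 c' hr i0 h2 fun j hj => ?_
    obtain ⟨n, hn⟩ := h3 j hj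
    rw [hn]
    exact AddSubgroup.nsmul_mem _ (sub_mem_Lam (xi_mem c j)) n

omit [NeZero p] in
/-- the stabiliser lattice of the blow-up away from the exceptional divisor -/
theorem Mu_unit (hB : IsBlow X X' (cen X.toPre a)) {q : X.R →ₐ[k] k} {q' : X'.R →ₐ[k] k}
    (hl : LiesOver q q') (h : Over (X.loc q) (X'.loc q') {chi (ee X.ρ), chi (-ee X.ρ)}) :
    Mu (X'.loc q') = Mu (X.loc q) ⊔ AddSubgroup.zmultiples (ee X.ρ) := by
  have hs := s_notMem h
  have hsR := s_mem_R hB.gens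
  refine le_antisymm ?_ (sup_le (Mu_le_of_over h) ?_)
  · have key : ∀ μ, ∀ u ∈ X.R, Hom μ u → NZ q' u → μ ∈ Mu (X.loc q) := by
      rintro μ u hu hh ⟨_, h1⟩
      obtain ⟨_, h2⟩ := hl u hu
      exact mem_Mu_of X.good (f := ⟨u, hu⟩) hh (h2 ▸ h1)
    refine Mu_le_of_gens X'.good (S := (X'.gens : Set (GA C MM))) rfl
      (fun u hu => X'.isH_gens hu) fun μ f hf hh hq => ?_
    have h0 := ne_zero_of_q hq
    rw [hB.gens] at hf
    rcases hf with hf | hf | ⟨z, hz, hf⟩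
    · exact AddSubgroup.mem_sup_left (key μ f (X.gens_mem hf) hh ⟨f.2, hq⟩)
    · rw [HomD.unique hh (hf ▸ hom_chi _) h0]
      exact AddSubgroup.mem_sup_right (AddSubgroup.mem_zmultiples _)
    · obtain ⟨h1, -, -, -⟩ := cen_deg hz
      replace hf : z.1 * chi (-ee X.ρ) ^ z.2 = (f : GA C MM) := hf
      rw [HomD.unique hh (hf ▸ hom_mul_chi h1 (ee X.ρ) z.2) h0, sub_eq_add_neg]
      refine AddSubgroup.add_mem_sup (key _ _ (cen_mem z hz).1 h1 ?_) (AddSubgroup.neg_mem _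
        (AddSubgroup.nsmul_mem _ (AddSubgroup.mem_zmultiples _) _))
      have h2 := nz_mul (q := q') ⟨f.2, hq⟩
        (nz_pow ((X'.notMem_loc_m hsR ⟨_, hom_chi _⟩).1 hs) z.2)
      rwa [← hf, mul_assoc, mul_comm (chi (-ee X.ρ) ^ _), chi_pow_mul_neg, mul_one] at h2
  · rw [AddSubgroup.zmultiples_le]
    exact ⟨_, le_loc q' hsR, hs, hom_chi _⟩

/-- the stabiliser lattices of the Veronese model -/
theorem Mu_ver (hp : 1 < p) (ha : Function.Surjective a) (hT : Tight X.toPre)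
    (hB : IsBlow X X' (cen X.toPre a)) (q' : X'.R →ₐ[k] k) (hq' : X'.IsPt q')
    {L : Loc k C MM} (hr : RootL (X'.loc q') L p (Lam X.toPre a) (ee X.ρ)) :
    ∃ q, X.IsPt q ∧ ((Mu L).relIndex (Lam X.toPre a) < (Mu (X.loc q)).relIndex X.M ∨
      (¬ Fix X.toPre a q ∧ Mu L = sh X.toPre a (Mu (X.loc q)))) := by
  obtain ⟨q, hq, hl, z, hz, hnz⟩ := hB.pt q' hq'
  refine ⟨q, hq, ?_⟩
  rw [hr.Mu_eq]
  by_cases h : ∃ z ∈ cen X.toPre a, NZ q z.1
  · obtain ⟨-, hU, -⟩ := BO.blowOverStmt k C N y X.toPre X'.toPre _ q q' hB.M hB.gens cen_mem hl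
    refine Or.inr ⟨fun hf => ?_, by rw [Mu_unit hB hl (hU h)]; rfl⟩
    obtain ⟨z, hz, hm, hq⟩ := h
    obtain ⟨h1, -, h2, -⟩ := cen_deg hz
    exact h2 (hf _ (mem_Mu_of X.good (f := ⟨_, hm⟩) h1 hq))
  · have hf := fix_of h
    obtain ⟨h1, h2, h3, h4⟩ := cen_deg hz
    refine Or.inl (relIndex_drop X.M (-ee X.ρ) a hp ha (idx_ne_zero hT hq)
      (fun μ hμ => (psi_of_mem μ.2).symm.trans (hf μ hμ))
      (le_inf (Mu_le_of_over (BO.over_newGens hB.gens hl))
        fun μ hμ => mem_Lam_of (Mu_le _ hμ) (hf μ hμ))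
      ⟨_, h2⟩ (fun h0 => h3 ((psi_of_mem h2).trans h0))
      (AddSubgroup.mem_inf.2 ⟨?_, up_mem _ _ _ h2⟩)).2
    rw [up_eq h2, ← h4]
    obtain ⟨hm, hq'⟩ := hnz
    exact mem_Mu_of X'.good (f := ⟨_, hm⟩) (hom_mul_chi h1 _ _) hq'

end Step

/-- one step of the destackification -/
theorem step [IsAlgClosed k] [CharZero k] (hπ : ∀ f : GA C MM, IsH f → f ≠ 0 → NotP π f)
    (hr : Red S π y) {X : Mod π y B d} (hT : Tight X.toPre) {q0 : X.R →ₐ[k] k} (hq0 : X.IsPt q0)
    (h1 : (Mu (X.loc q0)).relIndex X.M ≠ 1) (hX : Eqv s X) (hO : Iso Gd Ol X) :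
    ∃ (X'' : Mod π y B d) (f : AddSubgroup MM → AddSubgroup MM), Tight X''.toPre ∧
      Eqv s X'' ∧ Iso Gd Ol X'' ∧
      ∀ q'', X''.IsPt q'' → ∃ q, X.IsPt q ∧
        ((Mu (X''.loc q'')).relIndex X''.M < (Mu (X.loc q)).relIndex X.M ∨
          (Mu (X.loc q) ≠ Mu (X.loc q0) ∧ Mu (X''.loc q'') = f (Mu (X.loc q)) ∧
            (Mu (X''.loc q'')).relIndex X''.M ≤ (Mu (X.loc q)).relIndex X.M)) := by
  obtain ⟨p, hp, a, ha, hk⟩ := exists_char X.M _ (idx_ne_zero hT hq0) h1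
  have : NeZero p := ⟨by omega⟩
  have hfix : Fix X.toPre a q0 := fun μ hμ =>
    (psi_of_mem (Mu_le _ hμ)).trans (hk ⟨μ, Mu_le _ hμ⟩ hμ)
  obtain ⟨X', hB, hX'⟩ := BG.blow X _ hr (blowIn hπ hT hp ha) hX
    fun z hz => hX.gens _ (mem_cen.1 hz).1
  have hO' : Iso Gd Ol X' := hO.blow hB cen_mem fun q hq hv => by
    by_contra hne
    have : Fact (1 < p) := ⟨hp⟩
    obtain ⟨ν, hν⟩ := ha 1
    have h2 := fix_of hne ν ((hO q hq hv).1 ν ν.2)
    rw [psi_of_mem ν.2] at h2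
    exact one_ne_zero (hν.symm.trans h2)
  have hV := ver_of hB.M hB.gens
  have he : ee 0 ∈ Lam X.toPre a := by
    obtain ⟨j, hm, hj⟩ := X.dom q0 hq0
    exact mem_Lam_of X.e0_mem (hfix _ (mem_Mu_of X.good (f := ⟨_, hm⟩) ⟨_, rfl⟩ hj))
  obtain ⟨X'', hM, hR, hX'', hpt⟩ := exists_verModel hV he (coord_ver hB) hX' fun g hg => by
    obtain ⟨u, hu, rfl⟩ := mem_Gam.1 hg
    exact (hX.gens u hu).mul ((ev_chi _).pow _)
  refine ⟨X'', sh X.toPre a, tight_of hT hB.M hB.gens hM hR, hX'', fun q'' hq'' hv => ?_,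
    fun q'' hq'' => ?_⟩
  · obtain ⟨q', hq', h2, h3⟩ := hpt q'' hq''
    rw [h2] at hv ⊢
    obtain ⟨h4, h5⟩ := hO' q' hq' hv
    have h6 := hV.rootL q'
    rw [← h3] at h6
    refine ⟨fun μ hμ => ?_, fun c hc => h5 c ((h6.O_iff _).1 hc).1⟩
    rw [hM] at hμ
    obtain ⟨e, he, hm, hh⟩ := h4 μ (hV.le hμ)
    exact ⟨e, h6.mem_O he hh hμ, h6.notMem_m hm, hh⟩
  obtain ⟨q', hq', -, h2⟩ := hpt q'' hq''
  obtain ⟨q, hq, h3⟩ := Mu_ver hp ha hT hB q' hq' (hV.rootL q')
  rw [← h2] at h3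
  rw [hM]
  refine ⟨q, hq, h3.imp_right fun h4 => ⟨fun h5 => h4.1 fun μ hμ => hfix μ (h5 ▸ hμ), h4.2, ?_⟩⟩
  rw [h4.2]
  exact relIndex_sh (idx_ne_zero hT hq)

/-- the stabiliser lattices of index `n` -/
def Bad (X : Mod π y B d) (n : ℕ) : Set (AddSubgroup MM) :=
  {Γ | ∃ q, X.IsPt q ∧ Mu (X.loc q) = Γ ∧ Γ.relIndex X.M = n}

theorem Bad.finite (X : Mod π y B d) (n : ℕ) : (Bad X n).Finite :=
  (finite_Mu X.good).subset fun _ ⟨q, _, h, _⟩ => ⟨q, h⟩

theorem exists_free [IsAlgClosed k] [CharZero k]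
    (hπ : ∀ f : GA C MM, IsH f → f ≠ 0 → NotP π f) (hr : Red S π y) (n : ℕ) :
    ∀ X : Mod π y B d, Tight X.toPre → Eqv s X → Iso Gd Ol X →
      (∀ q, X.IsPt q → (Mu (X.loc q)).relIndex X.M ≤ n + 1) →
      ∃ X' : Mod π y B d, Free X' ∧ Eqv s X' ∧ Iso Gd Ol X' := by
  induction n with
  | zero =>
    intro X hT hX hO h
    refine ⟨X, fun q hq μ hμ => ?_, hX, hO⟩
    have h1 := h q hq
    have h2 := idx_ne_zero hT hq
    exact AddSubgroup.relIndex_eq_one.1 (by omega : (Mu (X.loc q)).relIndex X.M = 1) hμ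
  | succ n ih =>
    have key : ∀ m : ℕ, ∀ X : Mod π y B d, (Bad X (n + 2)).ncard = m → Tight X.toPre →
        Eqv s X → Iso Gd Ol X → (∀ q, X.IsPt q → (Mu (X.loc q)).relIndex X.M ≤ n + 2) →
        ∃ X' : Mod π y B d, Free X' ∧ Eqv s X' ∧ Iso Gd Ol X' := by
      intro m
      induction m using Nat.strong_induction_on with
      | _ m ihm =>
      intro X hm hT hX hO h
      by_cases h0 : ∃ q, X.IsPt q ∧ (Mu (X.loc q)).relIndex X.M = n + 2
      swap
      · refine ih X hT hX hO fun q hq => ?_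
        have h1 := h q hq
        have h2 : (Mu (X.loc q)).relIndex X.M ≠ n + 2 := fun h3 => h0 ⟨q, hq, h3⟩
        omega
      obtain ⟨q0, hq0, h1⟩ := h0
      obtain ⟨X'', f, hT'', hX'', hO'', hpt⟩ := step hπ hr hT hq0 (by omega) hX hO
      refine ihm _ ?_ X'' rfl hT'' hX'' hO'' fun q'' hq'' => ?_
      · have h2 : Bad X'' (n + 2) ⊆ f '' (Bad X (n + 2) \ {Mu (X.loc q0)}) := by
          rintro _ ⟨q'', hq'', rfl, h3⟩
          obtain ⟨q, hq, h4⟩ := hpt q'' hq''
          have h5 := h q hq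
          rcases h4 with h4 | ⟨h4, h6, h7⟩
          · omega
          · exact ⟨_, ⟨⟨q, hq, rfl, by omega⟩, h4⟩, h6.symm⟩
        have h3 := (Bad.finite X (n + 2)).sdiff (t := {Mu (X.loc q0)})
        refine ((Set.ncard_le_ncard h2 (h3.image f)).trans (Set.ncard_image_le h3)).trans_lt ?_
        rw [← hm]
        exact Set.ncard_sdiff_singleton_lt_of_mem ⟨q0, hq0, rfl, h1⟩ (Bad.finite X _)
      · obtain ⟨q, hq, h4⟩ := hpt q'' hq''
        have h5 := h q hq
        rcases h4 with h4 | ⟨-, -, h4⟩ <;> omega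
    exact fun X => key _ X rfl

theorem destackStmt (k : Type) [Field k] [IsAlgClosed k] [CharZero k] : DestackStmt k := by
  intro F _ _ N y B d X s Gd Ol hr hX hO
  obtain ⟨X, hT, hX, hO⟩ := exists_tight hr X hX hO
  obtain ⟨n, hn⟩ := ((finite_Mu X.good).image fun Γ => Γ.relIndex X.M).bddAbove
  refine exists_free ?_ hr n X hT hX hO fun q _ =>
    (hn ⟨_, ⟨q, rfl⟩, rfl⟩).trans (Nat.le_succ n)
  rintro _ ⟨μ, c, rfl⟩ h0
  exact ⟨μ, ⟨c, trivial⟩, rfl, single_ne_zero.1 h0⟩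

end Crest.Agent.X262.Res.Dest
end
end

-- ▼ part X262/Res/Emb
section

/-!
# Row 262, squad RES+: passing to the strict transform (`EmbGlobStmt`, helper65)

Port of the last theorem of `X277/Res/EmbGlob`; equivariance and the `Iso` clause are new.
-/

set_option autoImplicit false
set_option linter.unusedSectionVars false

noncomputable section

namespace Crest.Agent.X262.Res

open AddMonoidAlgebra Crest.Agent.X277.Res Crest.Agent.X277.Res.Gr Crest.Agent.X277.Res.L1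
  Crest.Agent.X277.Res.Emb

section Aux

variable {k C F : Type} [Field k] [Field C] [Field F] [Algebra k C] [Algebra k F]
  {S : Subalgebra k C} {π : S →ₐ[k] F} {s : kˣ →* (C ≃ₐ[k] C)} {s' : kˣ →* (F ≃ₐ[k] F)}

/-- the reduction of a weight vector is a weight vector -/
theorem EqRed.wt (h : EqRed s s' π) {n : ℤ} {c : C} (hc : c ∈ S) (hw : Wt s n c) :
    Wt s' n (pf π c) := by
  intro a
  obtain ⟨ha, e⟩ := h a ⟨c, hc⟩
  rw [pf_of_mem π hc, ← e, ← map_smul]
  exact congrArg π (Subtype.ext (hw a))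

theorem EqRed.ev (h : EqRed s s' π) {f : GA C MM} (hf : f ∈ SA MM S) (hw : EV s f) :
    EV s' (Pf π f) := by
  obtain ⟨μ, c, n, rfl, hw⟩ := hw
  exact ⟨μ, pf π c, n, Pf_single π μ c, h.wt (single_mem_SA.1 hf) hw⟩

end Aux

theorem embGlobStmt (k : Type) [Field k] : EmbGlobStmt k := by
  intro C F _ _ _ _ S π N y B d X I A hr s s' Gd Ol hE hS hs hX hO
  classical
  have hRle := R_le hr X.toPre
  refine ⟨Fintype.card {i // i ∉ A}, {
    toPre := preb hr X.toPre
    θ := X.θ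
    hs := X.hs.image (Pf π)
    ε := Pf π X.ε
    θ_mem := X.θ_mem
    hs_mem := fun h hh => ?_
    St := fun h hh μ hμ => ?_
    ε_mem := Pf_mem hr _ X.ε_mem
    ε_notP := ?_
    e0_mem := X.e0_mem
    Y_mem := fun j => ?_
    Y_dvd := fun j hj => ?_
    dom := fun q' hq' => ?_
    prop := fun V hV => ?_
    coord := fun q' hq' => ?_ }, ⟨fun u hu => ?_, fun u hu => ?_, ?_⟩, fun q' hq' hG => ?_⟩
  · obtain ⟨h, hh', rfl⟩ := Finset.mem_image.1 hh
    exact ⟨Pf_mem hr _ (X.hs_mem h hh').1, homD_Pf π (X.hs_mem h hh').2⟩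
  · obtain ⟨h, hh', rfl⟩ := Finset.mem_image.1 hh
    obtain ⟨n, hn, c, c', w, hw, w', hw', h1, h2, h3⟩ := X.St h hh' μ hμ
    refine ⟨n, hn, c, c', Pf π w, Pf_mem hr _ hw, Pf π w', Pf_mem hr _ hw', homD_Pf π h1,
      isHom_Pf π h2, ?_⟩
    rw [← Pf_mul π (hRle hw) (hRle hw'), h3, Pf_pow π (hRle (X.hs_mem h hh').1)]
  · obtain ⟨μ, c, h, hc⟩ := X.ε_notP
    exact ⟨μ, ⟨π c, trivial⟩, by rw [h, Pf_single, pf_coe], hc⟩
  · have := Pf_mem hr _ (X.Y_mem j)
    rwa [Pf_single, pf_y hr] at this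
  · obtain ⟨r, hr', h⟩ := X.Y_dvd j hj
    refine ⟨Pf π r, Pf_mem hr _ hr', ?_⟩
    rw [h, Pf_mul π (hRle hr') (hRle (X.Y_mem j)), Pf_single, pf_y hr]
  · obtain ⟨h, hh, hq⟩ := hq'
    obtain ⟨h, hh', rfl⟩ := Finset.mem_image.1 hh
    obtain ⟨j, hj⟩ := X.dom (und hr X.toPre q') ⟨h, hh', (nz_und hr (X.hs_mem h hh').1).2 hq⟩
    have := (nz_und hr (X.Y_mem j)).1 hj
    rw [Pf_single, pf_y hr] at this
    exact ⟨j, this⟩
  · obtain ⟨n, hn, τ, h1, c, hc, h2⟩ := X.prop V hV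
    refine ⟨n, hn, τ, fun μ a ha => ?_, ⟨π c, trivial⟩, ?_, h2⟩
    · obtain ⟨f, hf, ⟨e, rfl⟩, he⟩ := exists_Pf_hom hr X.toPre ha (homD_single _ _)
      have heS := single_mem_SA.1 (hRle hf)
      rw [Pf_single, single_right_inj, pf_of_mem π heS] at he
      have := h1 μ ⟨e, heS⟩ hf
      rwa [he] at this
    · refine Finset.mem_image.2 ⟨_, hc, ?_⟩
      rw [Pf_single, pf_coe]
  · obtain ⟨h, hh, hq⟩ := hq'
    obtain ⟨h, hh', rfl⟩ := Finset.mem_image.1 hh
    obtain ⟨c, hc⟩ := hS (und hr X.toPre q') ⟨h, hh', (nz_und hr (X.hs_mem h hh').1).2 hq⟩ (by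
      rintro f ⟨μ, e, rfl, he⟩ ⟨hf, hq⟩
      refine Pf_ne_zero hr (b := ⟨_, hf⟩) hq ?_
      change Pf π (single μ (e : C)) = 0
      rw [Pf_single, pf_coe, he, single_zero])
    refine Nonempty.elim (embed_core (X.loc (und hr X.toPre q')) ((preb hr X.toPre).loc q') X.ε
      (fresh C X.ρ) (fresh F X.ρ) (Fin d) c A (SA MM S) (PiH π) (loc_le hr) (hRle X.ε_mem)
      (PiH_surjective π hr.surj) graded_SA (fun μ f hf => homD_Pf π hf)
      (fun b hb h => exists_inv_SA hr hb b.2 h) (fun f hf hH => ?_)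
      (fun f hf => by rw [hc]; exact Pf_eq_zero_iff_span hr hf)
      (fun g => ⟨fun hg => ?_, fun ⟨f, hf, e⟩ => e ▸ Pf_mem_loc hr hf⟩)
      (fun g => ⟨fun hg => ?_, fun ⟨f, hf, e⟩ =>
        e ▸ (Pf_mem_m_iff hr ((X.loc _).m_le f hf)).2 hf⟩)
      (fun μ hμ => hμ) (fun t ht => ?_) ?_)
      fun c' => ⟨c'.reindex (Fintype.equivFin _).symm⟩
    · obtain ⟨μ, e, rfl⟩ := hH
      obtain ⟨b, hb, hb0, hbe⟩ := hr.frac ⟨e, single_mem_SA.1 hf⟩
      obtain ⟨n₁, h1⟩ := exists_single_mem hr X.Y_mem hb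
      obtain ⟨n₂, h2⟩ := exists_single_mem hr X.Y_mem hbe
      obtain ⟨ν, ν', τ, hν, hν', hτ, hμ⟩ := exists_chi hE.chi_mem μ
      have h3 := mul_mem (h1 _ (le_max_left n₁ n₂)) hν
      have h4 := mul_mem (h2 _ (le_max_right n₁ n₂)) hν'
      unfold chi at h3 h4
      rw [single_mul_single, mul_one] at h3 h4
      refine ⟨⟨_, hRle h3⟩, ⟨chi τ, single_one_mem_SA τ⟩, le_loc _ h3, isHom_single _ _, ?_,
        fun δ hδ => hδ _ ⟨τ, hτ, rfl⟩, isHom_single _ _, ?_, _, le_loc _ h4, ?_⟩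
      · rw [PiH_apply, Pf_single, pf_coe]
        exact single_ne_zero.2 hb0
      · rw [PiH_apply, Pf_chi]
        exact single_ne_zero.2 one_ne_zero
      · change single _ _ * single _ _ = single _ _ * single _ _
        rw [single_mul_single, single_mul_single, mul_one, add_assoc, add_assoc, hμ]
    · obtain ⟨f, hf, e⟩ := exists_Pf_loc hr hg
      exact ⟨f, hf, e⟩
    · obtain ⟨f, hf, e⟩ := exists_Pf_loc hr (((preb hr X.toPre).loc q').m_le g hg)
      exact ⟨f, (Pf_mem_m_iff hr hf).1 (e ▸ hg), e⟩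
    · obtain ⟨μ, hμ, rfl⟩ := ht
      exact ⟨⟨chi μ, single_one_mem_SA μ⟩, ⟨μ, hμ, rfl⟩, Pf_chi π μ⟩
    · obtain ⟨μ, e, h, he⟩ := X.ε_notP
      rw [PiH_apply]
      change Pf π X.ε ≠ 0
      rw [h, Pf_single, pf_coe]
      exact single_ne_zero.2 he
  · obtain ⟨v, hv, rfl⟩ := Finset.mem_image.1 hu
    exact hs.ev (hRle (X.gens_mem hv)) (hX.gens v hv)
  · obtain ⟨v, hv, rfl⟩ := Finset.mem_image.1 hu
    exact hs.ev (hRle (X.hs_mem v hv).1) (hX.hs v hv)
  · exact hs.ev (hRle X.ε_mem) hX.ε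
  · obtain ⟨h, hh, hq⟩ := hq'
    obtain ⟨h, hh', rfl⟩ := Finset.mem_image.1 hh
    have hv : X.vals (und hr X.toPre q') = fun j => q' ⟨single (ee 0) (yb hr j), by
        have := Pf_mem hr _ (X.Y_mem j)
        rwa [Pf_single, pf_y hr] at this⟩ := by
      funext j
      exact congrArg q' (Subtype.ext ((Pf_single π _ _).trans (congrArg _ (pf_y hr j))))
    obtain ⟨h1, h2⟩ := hO (und hr X.toPre q') ⟨h, hh', (nz_und hr (X.hs_mem h hh').1).2 hq⟩
      (by rw [hv]; exact hG)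
    refine ⟨fun μ hμ => ?_, fun c hc => ?_⟩
    · obtain ⟨e, he, hem, heμ⟩ := h1 μ hμ
      exact ⟨Pf π e, Pf_mem_loc hr he, fun h => hem ((Pf_mem_m_iff hr he).1 h), homD_Pf π heμ⟩
    · obtain ⟨f, hf, e⟩ := exists_Pf_loc hr hc
      have hf0 : cp 0 f ∈ Gr.loc X.R (und hr X.toPre q') := graded_loc X.graded _ f hf 0
      have hS0 : f.coeff 0 ∈ S := mem_SA.1 (loc_le hr hf) 0
      have h3 := h2 ⟨_, hS0⟩ hf0
      rw [hv, ← pf_of_mem π hS0, ← coeff_Pf, e, coeff_single, Finsupp.single_eq_same] at h3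
      exact h3

end Crest.Agent.X262.Res
end
end

-- ▼ part X262/Res/Fin
section

/-!
# Row 262, squad RES+: the projective model (`FinalStmt`, helper65)

Port of `X277/Res/FinGlob` and `X277/Res/Final`: the coordinates of the projective model are weight
vectors, the boundary hyperplanes are monomials, nothing happens over the good points.
-/

set_option autoImplicit false
set_option linter.unusedSectionVars false

noncomputable section

namespace Crest.Agent.X262.Res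

open AddMonoidAlgebra Crest.Agent.X277.Res Crest.Agent.X277.Res.Gr Crest.Agent.X277.Res.Out
  Crest.Agent.X277.Lef

namespace Fn

/-- divisors of a product of primes (helper37's lemma) -/
theorem exists_of_dvd_prod {R : Type*} [CommRing R] [IsDomain R] {ι : Type*} [DecidableEq ι]
    (p : ι → R) (hp : ∀ l, Prime (p l)) (b : ι → ℕ) (s : Finset ι) :
    ∀ f : R, f ∣ ∏ l ∈ s, p l ^ b l →
      ∃ c : ι → ℕ, ∃ u, IsUnit u ∧ f = u * ∏ l ∈ s, p l ^ c l := by
  induction s using Finset.induction_on with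
  | empty =>
    intro f hf
    rw [Finset.prod_empty] at hf
    exact ⟨fun _ => 0, f, isUnit_of_dvd_one hf, by simp⟩
  | insert a s ha ih =>
    rintro f ⟨g, hg⟩
    rw [Finset.prod_insert ha, mul_comm] at hg
    obtain ⟨i, j, b', c', -, hbc, hf, -⟩ := mul_eq_mul_prime_pow (hp a) hg.symm
    obtain ⟨c, u, hu, hb'⟩ := ih b' ⟨c', hbc⟩
    refine ⟨Function.update c a i, u, hu, ?_⟩
    rw [Finset.prod_insert ha, Function.update_self, hf, hb']
    have h1 : ∏ l ∈ s, p l ^ Function.update c a i l = ∏ l ∈ s, p l ^ c l :=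
      Finset.prod_congr rfl fun l hl => by
        rw [Function.update_of_ne fun h : l = a => ha (h ▸ hl)]
    rw [h1]
    ring

variable {k F : Type} [Field k] [Field F] [Algebra k F]

/-- a divisor of a monomial in the coordinates is a monomial -/
theorem mono_of_dvd [CharZero k] {O : Subalgebra k F} [IsLocalRing O] [IsNoetherianRing O] {n : ℕ}
    {t : Fin n → F} (h : Coords O t) {a : F} (ha : a ∈ O) (ha0 : a ≠ 0) (b : Fin n → ℕ)
    (hd : (∏ l, t l ^ b l) / a ∈ O) : ∃ β : Fin n → ℕ, Un O (a / ∏ l, t l ^ β l) := by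
  have hc : ∀ b : Fin n → ℕ, ((∏ l, h.el l ^ b l : O) : F) = ∏ l, t l ^ b l := fun b => by
    rw [SubmonoidClass.coe_finsetProd]
    rfl
  obtain ⟨β, u, hu, e⟩ := exists_of_dvd_prod h.el h.prime b Finset.univ ⟨a, ha⟩
    ⟨⟨_, hd⟩, Subtype.ext (by
      rw [hc, MulMemClass.coe_mul]
      exact (mul_div_cancel₀ _ ha0).symm)⟩
  refine ⟨β, ?_⟩
  have e' : a = u * ∏ l, t l ^ β l := by
    rw [← hc]
    exact congrArg Subtype.val e
  rw [e', mul_div_cancel_right₀ _
    (Finset.prod_ne_zero_iff.2 fun l _ => pow_ne_zero _ (h.ne_zero l))]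
  exact (un_iff_isUnit u).2 hu

section Dickson

variable {G : Type} [AddCommGroup G] {s : kˣ →* (F ≃ₐ[k] F)}

/-- the coefficients are spanned by weight vectors -/
theorem coeff_mem_span {S : Set (GA F G)} (hS : ∀ u ∈ S, EV s u) {f : GA F G}
    (hf : f ∈ Algebra.adjoin k S) (μ : G) : f.coeff μ ∈ Submodule.span k
      {c : F | (single μ c : GA F G) ∈ Algebra.adjoin k S ∧ ∃ n, Wt s n c} := by
  classical
  have h1 : f ∈ Submodule.span k (Submonoid.closure S : Set (GA F G)) := by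
    rw [← Algebra.adjoin_eq_span]; exact hf
  clear hf
  induction h1 using Submodule.span_induction with
  | mem a ha =>
    have h2 : a ∈ Algebra.adjoin k S ∧ EV s a := by
      induction ha using Submonoid.closure_induction with
      | mem x hx => exact ⟨Algebra.subset_adjoin hx, hS x hx⟩
      | one => exact ⟨one_mem _, ev_one⟩
      | mul x y _ _ hx hy => exact ⟨mul_mem hx.1 hy.1, hx.2.mul hy.2⟩
    obtain ⟨h2, ν, c, n, rfl, hc⟩ := h2
    rw [coeff_single, Finsupp.single_apply]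
    split_ifs with h
    · exact Submodule.subset_span ⟨h ▸ h2, n, hc⟩
    · exact zero_mem _
  | zero => exact zero_mem _
  | add a b _ _ ha hb => rw [coeff_add, Finsupp.add_apply]; exact add_mem ha hb
  | smul c a _ ha => rw [coeff_smul, Finsupp.smul_apply]; exact Submodule.smul_mem _ c ha

/-- Dickson–Gordan with weight vectors -/
theorem dickson (S : Finset (GA F G)) (hS : ∀ u ∈ S, EV s u) (θ : G) : ∃ T : Finset (ℕ × F),
    (∀ p ∈ T, (single (p.1 • θ) p.2 : GA F G) ∈ Algebra.adjoin k (S : Set (GA F G)) ∧ p.2 ≠ 0 ∧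
      ∃ n, Wt s n p.2) ∧
    ∀ hb : F, hb ≠ 0 → ∀ (e : ℕ) (f : F),
      (single (e • θ) f : GA F G) ∈ Algebra.adjoin k (S : Set (GA F G)) →
      f / hb ^ e ∈ Algebra.adjoin k {x | ∃ p ∈ T, x = p.2 / hb ^ p.1} := by
  classical
  obtain ⟨s₀, hs, hs'⟩ := dicksonStmt (Algebra.adjoin k (S : Set (GA F G))) ⟨S, rfl⟩
    (graded_adjoin fun u hu => (hS u hu).isH) θ
  have h1 : ∀ p : ℕ × F, ∃ T : Finset F, p ∈ s₀ → (T : Set F) ⊆ {c : F |
      (single (p.1 • θ) c : GA F G) ∈ Algebra.adjoin k (S : Set (GA F G)) ∧ ∃ n, Wt s n c} ∧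
      p.2 ∈ Submodule.span k (T : Set F) := by
    intro p
    by_cases hp : p ∈ s₀
    · have h2 := coeff_mem_span hS (hs p hp).1 (p.1 • θ)
      rw [coeff_single_self] at h2
      obtain ⟨T, hT⟩ := Submodule.mem_span_finite_of_mem_span h2
      exact ⟨T, fun _ => hT⟩
    · exact ⟨∅, fun h => absurd h hp⟩
  choose T hT using h1
  refine ⟨s₀.biUnion fun p => ((T p).filter (· ≠ 0)).image fun c => (p.1, c), fun p hp => ?_,
    fun hb h0 e f hf => ?_⟩
  · simp only [Finset.mem_biUnion, Finset.mem_image, Finset.mem_filter] at hp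
    obtain ⟨p, hp, c, ⟨hc, hc0⟩, rfl⟩ := hp
    exact ⟨((hT p hp).1 hc).1, hc0, ((hT p hp).1 hc).2⟩
  · refine Algebra.adjoin_le ?_ (hs' hb h0 e f hf)
    rintro _ ⟨p, hp, rfl⟩
    have h2 := (hT p hp).2
    generalize p.2 = x at h2
    induction h2 using Submodule.span_induction with
    | mem c hc =>
      by_cases hc0 : c = 0
      · rw [hc0, zero_div]; exact zero_mem _
      · exact Algebra.subset_adjoin ⟨(p.1, c), Finset.mem_biUnion.2 ⟨p, hp,
          Finset.mem_image_of_mem _ (Finset.mem_filter.2 ⟨hc, hc0⟩)⟩, rfl⟩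
    | zero => rw [zero_div]; exact zero_mem _
    | add a b _ _ ha hb => rw [add_div]; exact add_mem ha hb
    | smul c a _ ha => rw [smul_div_assoc]; exact Subalgebra.smul_mem _ ha c

end Dickson

variable {N d : ℕ} {y : Fin (N + 1) → F} {B : Set (Fin (N + 1))}
  (X : Mod (⊤ : Subalgebra k F).val (fun j => y j / y 0) B d)

/-- coordinates at a point with trivial stabiliser -/
theorem finPt (q : X.R →ₐ[k] k) (hq : X.IsPt q) (hX : FreeAt X q) :
    Nonempty (FinPt X.R q ⟨X.ε, X.ε_mem⟩ d) := by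
  obtain ⟨c⟩ := X.coord q hq
  refine finPt_of_coord X.good q ⟨X.ε, X.ε_mem⟩ c fun μ hμ => ?_
  obtain ⟨e, he, he', hh⟩ := hX μ hμ
  exact ⟨⟨e, he⟩, hh, fun h0 => he' ((mem_locOf_m_iff_ev X.good (f := ⟨e, he⟩) ⟨μ, hh⟩).2 h0)⟩

/-- the quotients of the coordinates at a point -/
theorem dom (hy : ∀ j, y j ≠ 0) (q : X.R →ₐ[k] k) {i : Fin (N + 1)} (hi : X.vals q i ≠ 0)
    (j : Fin (N + 1)) : ∃ h : y j / y i ∈ O0 X.R q,
      ev0 X.R q ⟨_, h⟩ = X.vals q j / X.vals q i := by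
  have hYne : (single (ee 0) (y i / y 0) : GA F MM) ≠ 0 :=
    single_ne_zero.2 (div_ne_zero (hy i) (hy 0))
  obtain ⟨v, -, hv⟩ := exists_inv_of_ev (a := incl X.R q ⟨_, X.Y_mem i⟩) (isHom_single _ _)
    (by rwa [ev_incl])
  have hv' : (v : GA F MM) * single (ee 0) (y i / y 0) = 1 := congrArg Subtype.val hv
  have h1 := single_div (c := ((incl X.R q ⟨_, X.Y_mem j⟩ * v : loc X.R q) : GA F MM))
    (homD_single (ee 0) (y j / y 0)) (homD_single (ee 0) (y i / y 0)) hYne (by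
      rw [MulMemClass.coe_mul, mul_assoc, hv', mul_one]; rfl)
  rw [coeff_single_self, coeff_single_self, div_div_div_cancel_right₀ (hy 0)] at h1
  have h2 : y j / y i ∈ O0 X.R q := by
    rw [mem_O0, h1]
    exact Subtype.prop _
  refine ⟨h2, ?_⟩
  have h3 : inc0 X.R q ⟨_, h2⟩ = incl X.R q ⟨_, X.Y_mem j⟩ * v := Subtype.ext h1
  have h4 := congrArg (ev X.R q) hv
  rw [map_mul, ev_incl, map_one] at h4
  rw [ev0_apply, h3, map_mul, ev_incl, eq_inv_of_mul_eq_one_left h4]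
  exact (div_eq_mul_inv _ _).symm

/-- the local analysis at a point -/
theorem plusAt [CharZero k] (hy : ∀ j, y j ≠ 0) (hX : Free X) (hO : Iso (gdv y B) (olv y) X)
    (q : X.R →ₐ[k] k) (hq : X.IsPt q) [IsLocalRing (O0 X.R q)] [IsNoetherianRing (O0 X.R q)] :
    ∃ (t : Fin d → F) (i₀ : Fin (N + 1)), PlusAt y B (O0 X.R q) t i₀ := by
  obtain ⟨P⟩ := finPt X q hq (hX q hq)
  set t : Fin d → F := fun l =>
    (P.x l : GA F MM).coeff (P.μ l) / (P.w l : GA F MM).coeff (P.μ l) with ht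
  have hcoord : Coords (O0 X.R q) t :=
    coords_O0 X.graded P.x P.w P.μ P.hx P.hw P.hw0 P.span P.d P.hd P.dual
  have hwu : ∀ l, IsUnit (P.w l) := fun l => isUnit_of_ev (P.hw l).isHom (P.hw0 l)
  have hwne : ∀ l, (P.w l : GA F MM) ≠ 0 := fun l h =>
    P.hw0 l (by rw [show P.w l = 0 from Subtype.ext h, map_zero])
  have hxt : ∀ l, P.x l = inc0 X.R q ⟨t l, hcoord.mem l⟩ * P.w l := fun l => by
    apply Subtype.ext
    rw [MulMemClass.coe_mul, coe_inc0]
    conv_rhs => rw [homD_eq (P.hw l), single_mul_single, zero_add]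
    simp only [ht]
    rw [div_mul_cancel₀ _ (coeff_ne_zero (P.hw l) (hwne l))]
    exact homD_eq (P.hx l)
  set τ : O0 X.R q := ∏ l, (⟨t l, hcoord.mem l⟩ : O0 X.R q) ^ P.β l with hτ
  have hτ' : (τ : F) = ∏ l, t l ^ P.β l := by
    rw [hτ, SubmonoidClass.coe_finsetProd]
    rfl
  obtain ⟨U, hUe⟩ : ∃ U : loc X.R q, inc0 X.R q τ = U * incl X.R q ⟨X.ε, X.ε_mem⟩ := by
    have h1 : IsUnit (P.u * ∏ l, P.w l ^ P.β l) :=
      P.hu.mul (IsUnit.prod_iff.2 fun l _ => (hwu l).pow _)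
    refine ⟨↑h1.unit⁻¹, ?_⟩
    rw [Units.eq_inv_mul_iff_mul_eq, IsUnit.unit_spec, P.heps, hτ, map_prod, mul_assoc,
      ← Finset.prod_mul_distrib]
    congr 1
    refine Finset.prod_congr rfl fun l _ => ?_
    rw [map_pow, ← mul_pow, mul_comm, ← hxt]
  have hUe' : (single 0 (τ : F) : GA F MM) = U * X.ε := congrArg Subtype.val hUe
  obtain ⟨i₀, _, hi₀⟩ := X.dom q hq
  have hi₀ : X.vals q i₀ ≠ 0 := hi₀
  have hdom := dom X hy q hi₀
  refine ⟨t, i₀, hcoord, fun j => (hdom j).1, fun j hj => ?_, fun i ψ hS hD => ?_⟩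
  · refine mono_of_dvd hcoord (hdom j).1 (div_ne_zero (hy j) (hy i₀)) P.β ?_
    obtain ⟨r, hr, hr'⟩ := X.Y_dvd j hj
    have h1 : HomD (ee 0) (single 0 (τ : F) * single (ee 0) (y i₀ / y 0) : GA F MM) := by
      rw [single_mul_single, zero_add]; exact homD_single _ _
    have h2 := div_mem_O0 (q := q) h1 (homD_single (ee 0) (y j / y 0))
      (single_ne_zero.2 (div_ne_zero (hy j) (hy 0)))
      (U * incl X.R q (⟨r, hr⟩ * ⟨_, X.Y_mem i₀⟩)) (by
        rw [hUe', hr']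
        simp only [MulMemClass.coe_mul, coe_incl]
        ring)
    rw [single_mul_single, zero_add, coeff_single_self, coeff_single_self, mul_div_assoc,
      div_div_div_cancel_right₀ (hy 0)] at h2
    rw [← hτ', div_div_eq_mul_div, mul_div_assoc]
    exact h2
  · have hle : chart k y i ≤ O0 X.R q := fun a ha => (hD ⟨a, ha⟩).1
    have hψ : ∀ a : chart k y i, ψ a = ev0 X.R q ⟨a, hle a.2⟩ := fun a => by
      have h1 := (hD (a - algebraMap k _ (ψ a))).2 (by simp)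
      rw [un_O0_iff (⟨_, hle (a - algebraMap k _ (ψ a)).2⟩ : O0 X.R q), not_not] at h1
      have h2 : (⟨_, hle (a - algebraMap k _ (ψ a)).2⟩ : O0 X.R q) =
          ⟨a, hle a.2⟩ - algebraMap k _ (ψ a) := rfl
      rw [h2, map_sub, AlgHom.commutes, sub_eq_zero] at h1
      exact h1.symm
    have hi : X.vals q i ≠ 0 := by
      obtain ⟨h1, h2⟩ := hdom i
      have h3 : Un (O0 X.R q) (y i / y i₀) :=
        ⟨div_ne_zero (hy i) (hy i₀), h1, by rw [inv_div]; exact hle (div_mem_chart y i i₀)⟩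
      have h4 := (un_O0_iff (⟨_, h1⟩ : O0 X.R q)).1 h3
      rw [h2] at h4
      exact fun h0 => h4 (by rw [h0, zero_div])
    have hv : ∀ j, ψ ⟨_, div_mem_chart y i j⟩ = X.vals q j / X.vals q i := fun j => by
      rw [hψ]
      exact (dom X hy q hi j).2
    refine le_antisymm (fun c hc => ?_) (lo_le_of_un hle fun b hb => ?_)
    · have h1 : c ∈ olv y (X.vals q) := (hO q hq ⟨i, ψ, hi, hv, hS⟩).2 ⟨c, trivial⟩ hc
      simp only [olv, Algebra.mem_iInf] at h1
      exact h1 i ψ ⟨hi, hv⟩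
    · exact (un_O0_iff (⟨(b : F), hle b.2⟩ : O0 X.R q)).2 (hψ b ▸ hb)

/-- semistability in the form used by `lo_B0` -/
theorem st {h : GA F MM} (hh : h ∈ X.hs) (q : X.R →ₐ[k] k) (hq : q ⟨h, (X.hs_mem h hh).1⟩ ≠ 0)
    (b : X.R) (hb : IsHom (b : GA F MM)) (hqb : q b ≠ 0) :
    ∃ (c : X.R) (e : ℕ), HomD (e • X.θ) ((c * b : X.R) : GA F MM) ∧ q c ≠ 0 := by
  obtain ⟨μ, hb⟩ := hb
  obtain ⟨n, hn, e, e', w, hw, w', hw', h1, -, h2⟩ :=
    X.St h hh (-μ) (neg_mem (X.deg_mem μ _ b.2 hb (ne_zero_of_q hqb)))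
  obtain ⟨n, rfl⟩ := Nat.exists_eq_succ_of_ne_zero hn.ne'
  refine ⟨⟨w, hw⟩ * b ^ n, e, ?_, ?_⟩
  · rw [mul_assoc, ← pow_succ]
    have h3 := HomD.mul (show HomD _ w from h1) (hb.pow (n + 1))
    rwa [smul_neg, neg_add_cancel_comm] at h3
  · have h3 : (⟨w, hw⟩ * ⟨w', hw'⟩ : X.R) = ⟨h, (X.hs_mem h hh).1⟩ ^ e' := Subtype.ext h2
    have h4 := congrArg q h3
    rw [map_mul, map_pow] at h4
    rw [map_mul, map_pow]
    exact mul_ne_zero (left_ne_zero_of_mul (h4 ▸ pow_ne_zero _ hq)) (pow_ne_zero _ hqb)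

/-- properness in the form used by `exists_good_chart` -/
theorem prop (V : ValuationSubring F) (hV : ∀ c, algebraMap k F c ∈ V) :
    ∃ c : F, c ≠ 0 ∧ (single X.θ c : GA F MM) ∈ X.hs ∧
      ∀ (e : ℕ) (f : F), (single (e • X.θ) f : GA F MM) ∈ X.R → f / c ^ e ∈ V := by
  obtain ⟨n, hn, τ, h1, c, hc, h2⟩ := X.prop V hV
  have h5 : V.valuation (c : F) ^ n * τ (Multiplicative.ofAdd X.θ) = 1 := h2
  have h3 : V.valuation (c : F) ≠ 0 := by
    intro h0
    rw [h0, zero_pow hn.ne', zero_mul] at h5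
    exact zero_ne_one h5
  refine ⟨c, (Valuation.ne_zero_iff _).1 h3, hc, fun e f hf => ?_⟩
  have h4 : V.valuation f ^ n * τ (Multiplicative.ofAdd (e • X.θ)) ≤ 1 :=
    h1 (e • X.θ) ⟨f, trivial⟩ hf
  rw [ofAdd_nsmul, map_pow, eq_inv_of_mul_eq_one_right h5] at h4
  rw [← V.valuation_le_one_iff, ← pow_le_one_iff hn.ne', map_div₀, map_pow, div_pow,
    div_eq_mul_inv, ← pow_mul, mul_comm e, pow_mul, ← inv_pow]
  exact h4

end Fn

/-- **Phase 3**: the projective model -/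
theorem finalStmt (k : Type) [Field k] [IsAlgClosed k] [CharZero k] : FinalStmt k := by
  intro F _ _ N y B d X s hy hfr hX hE hO
  classical
  obtain ⟨T, hT, hT'⟩ := Fn.dickson X.gens hE.gens X.θ
  have hft : Algebra.FiniteType k X.R := (Subalgebra.fg_iff_finiteType _).1 X.fg
  let H : Finset F := (X.hs.filter (· ≠ 0)).image fun h => h.coeff X.θ
  have hH : ∀ c, c ∈ H ↔ c ≠ 0 ∧ (single X.θ c : GA F MM) ∈ X.hs := by
    intro c
    simp only [H, Finset.mem_image, Finset.mem_filter]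
    constructor
    · rintro ⟨h, ⟨h1, h2⟩, rfl⟩
      have h3 : HomD X.θ h := (X.hs_mem h h1).2
      exact ⟨coeff_ne_zero h3 h2, homD_eq h3 ▸ h1⟩
    · rintro ⟨h1, h2⟩
      exact ⟨_, ⟨h2, fun h => h1 (single_eq_zero.1 h)⟩, coeff_single_self _ _⟩
  have hb0 : ∀ i : H, (i : F) ≠ 0 := fun i => ((hH _).1 i.2).1
  have hbs : ∀ i : H, (single X.θ (i : F) : GA F MM) ∈ X.hs := fun i => ((hH _).1 i.2).2
  have hh : ∀ i : H, (single X.θ (i : F) : GA F MM) ∈ X.R := fun i => (X.hs_mem _ (hbs i)).1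
  have hbw : ∀ i : H, ∃ n, Wt s n (i : F) := fun i => by
    have h1 := (hE.hs _ (hbs i)).coeff X.θ
    rwa [coeff_single_self] at h1
  set m := 1 + ∑ p ∈ T, p.1 with hm
  have hle : ∀ p ∈ T, p.1 ≤ m := fun p hp =>
    (Finset.single_le_sum (f := fun p : ℕ × F => p.1) (fun _ _ => Nat.zero_le _) hp).trans
      (by omega)
  let Y : H × Option T → F := fun a =>
    a.2.elim ((a.1 : F) ^ m) fun p => p.1.2 * (a.1 : F) ^ (m - p.1.1)
  have hY0 : ∀ a, Y a ≠ 0 := by
    rintro ⟨i, _ | p⟩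
    · exact pow_ne_zero _ (hb0 i)
    · exact mul_ne_zero (hT _ p.2).2.1 (pow_ne_zero _ (hb0 i))
  have hYR : ∀ a, (single (m • X.θ) (Y a) : GA F MM) ∈ X.R := by
    rintro ⟨i, _ | p⟩
    · have h1 := pow_mem (hh i) m
      rwa [single_pow] at h1
    · have h1 := mul_mem (show _ ∈ X.R from (hT _ p.2).1) (pow_mem (hh i) (m - p.1.1))
      rwa [single_pow, single_mul_single, ← add_smul, Nat.add_sub_cancel' (hle _ p.2)] at h1
  have hYw : ∀ a, ∃ n, Wt s n (Y a) := by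
    rintro ⟨i, _ | p⟩
    · obtain ⟨n, hn⟩ := hbw i
      exact ⟨_, hn.pow m⟩
    · obtain ⟨n, hn⟩ := hbw i
      obtain ⟨n', hn'⟩ := (hT _ p.2).2.2
      exact ⟨_, hn'.mul (hn.pow _)⟩
  obtain ⟨c₁, hc₁, hc₁', -⟩ := Fn.prop X ⊤ fun _ => trivial
  have hne : Nonempty (H × Option T) := ⟨(⟨c₁, (hH _).2 ⟨hc₁, hc₁'⟩⟩, none)⟩
  obtain ⟨N', hN'⟩ := Nat.exists_eq_succ_of_ne_zero (Fintype.card_ne_zero (α := H × Option T))
  let e : H × Option T ≃ Fin (N' + 1) := Fintype.equivFinOfCardEq hN'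
  let y' : Fin (N' + 1) → F := fun j => Y (e.symm j)
  have hy'i : ∀ i : H, y' (e (i, none)) = (i : F) ^ m := fun i => by simp [y', Y]
  have hchart : ∀ i : H, chart k y' (e (i, none)) = B0 X.R X.θ i (hh i) := by
    intro i
    apply le_antisymm
    · refine chart_le fun j => ?_
      rw [hy'i]
      exact div_mem_B0 (hb0 i) (hYR _)
    · rintro f ⟨a, ha⟩
      have h1 := hT' _ (hb0 i) a _ ha
      rw [mul_div_cancel_right₀ _ (pow_ne_zero _ (hb0 i))] at h1
      refine Algebra.adjoin_mono ?_ h1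
      rintro _ ⟨p, hp, rfl⟩
      refine ⟨e (i, some ⟨p, hp⟩), ?_⟩
      have h2 : y' (e (i, some ⟨p, hp⟩)) = p.2 * (i : F) ^ (m - p.1) := by simp [y', Y]
      have h3 := hb0 i
      change y' _ / y' _ = _
      rw [h2, hy'i, ← Nat.add_sub_cancel' (hle p hp), pow_add, Nat.add_sub_cancel_left]
      field_simp
  have hP : ∀ V : ValuationSubring F, (∀ c, algebraMap k F c ∈ V) →
      ∃ i, (∃ i', i = e (i', none)) ∧ ∀ j, y' j / y' i ∈ V := by
    intro V hV
    obtain ⟨c, hc, hc', hi⟩ := Fn.prop X V hV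
    refine ⟨_, ⟨⟨c, (hH _).2 ⟨hc, hc'⟩⟩, rfl⟩, fun j => ?_⟩
    rw [hy'i]
    exact hi _ _ (hYR _)
  have hy' : ∀ j, y' j ≠ 0 := fun j => hY0 _
  have key : ∀ j, ∀ φ : chart k y' j →ₐ[k] k, ∃ (t : Fin d → F) (i₀ : Fin (N + 1)),
      PlusAt y B (lo (chart k y' j) φ) t i₀ := by
    intro j φ
    obtain ⟨_, ⟨i, rfl⟩, hu⟩ := exists_good_chart hy' _ hP j φ
    obtain ⟨ψ, hψ⟩ := exists_change hy' φ hu
    rw [← hψ]
    have hf := finiteType_chart (k := k) y' (e (i, none))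
    revert ψ hf
    rw [hchart]
    intro ψ _ hf
    obtain ⟨q, hq, hφ⟩ := exists_lift X.graded (hb0 i) ψ
    have h1 := lo_B0 hq (Fn.st X (hbs i) q hq) ψ hφ
    have h2 : IsLocalRing (O0 X.R q) := h1 ▸ isLocalRing_lo _ ψ
    have h3 : IsNoetherianRing (O0 X.R q) := h1 ▸ isNoetherianRing_lo _ ψ
    rw [h1]
    exact Fn.plusAt X hy hX hO q ⟨_, hbs i, hh i, hq⟩
  refine ⟨⟨N', y', hy', ?_, fun i => ?_⟩, fun j => hYw _, key⟩
  · have := finiteType_chart (k := k) y' 0
    obtain ⟨φ⟩ := nonempty_point (chart k y' 0)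
    obtain ⟨t, i₀, hw⟩ := key 0 φ
    exact (hfr.chart hy i₀).of_le_lo (chart_le hw.dom)
  · have := finiteType_chart (k := k) y' i
    refine smooth_of_coords fun φ => ?_
    obtain ⟨t, i₀, hw⟩ := key i φ
    exact ⟨d, t, hw.coords⟩

end Crest.Agent.X262.Res
end
end

-- ▼ part X262/Res/Main0
section

/-!
# Row 262, squad RES+: assembly modulo the first model and the equivariant centre (helper64)
-/

set_option autoImplicit false

namespace Crest.Agent.X262.Res

theorem plusStmt_of (k : Type) [Field k] [IsAlgClosed k] [CharZero k] (h0 : StartStmt k)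
    (h1 : CentreEV k) : PlusStmt k :=
  plus_of k h0 (loopStmt_of k h1) (embGlobStmt k) (Dest.destackStmt k) (finalStmt k)

end Crest.Agent.X262.Res
end

-- ▼ part X262/Res/Cen
section

/-!
# Row 262, squad RES+: the centre is generated by weight vectors (helper64)
-/

set_option autoImplicit false
set_option linter.unusedSectionVars false

noncomputable section

namespace Crest.Agent.X262.Res

open Crest.Agent.X277.Res AddMonoidAlgebra Gr

variable {k C G : Type} [Field k] [Field C] [Algebra k C] [AddCommGroup G]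

/-- the action on the ambient ring -/
def act (s : kˣ →* (C ≃ₐ[k] C)) (a : kˣ) : GA C G →ₐ[k] GA C G :=
  mapAlgHom G (s a : C →ₐ[k] C)

variable {s : kˣ →* (C ≃ₐ[k] C)}

theorem act_single (a : kˣ) (μ : G) (c : C) : act s a (single μ c) = single μ (s a c) :=
  mapAlgHom_single _ _ _

theorem act_act (a b : kˣ) (f : GA C G) : act s a (act s b f) = act s (a * b) f := by
  ext μ
  simp only [act, coeff_mapAlgHom, map_mul]
  rfl

theorem act_one (f : GA C G) : act s 1 f = f := by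
  ext μ
  simp only [act, coeff_mapAlgHom, map_one]
  rfl

theorem act_inv_act (a : kˣ) (f : GA C G) : act s a⁻¹ (act s a f) = f := by
  rw [act_act, inv_mul_cancel, act_one]

theorem act_act_inv (a : kˣ) (f : GA C G) : act s a (act s a⁻¹ f) = f := by
  rw [act_act, mul_inv_cancel, act_one]

theorem isH_act (a : kˣ) {f : GA C G} (hf : IsH f) : IsH (act s a f) := by
  obtain ⟨μ, c, rfl⟩ := hf
  exact ⟨μ, _, act_single a μ c⟩

theorem EV.act {f : GA C G} (hf : EV s f) (a : kˣ) : ∃ c : kˣ, act s a f = (c : k) • f := by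
  obtain ⟨μ, c, n, rfl, hc⟩ := hf
  exact ⟨a ^ n, by rw [act_single, hc, smul_single]⟩

theorem EV.act' {f : GA C G} (hf : EV s f) (a : kˣ) : ∃ c : k, f = c • Res.act s a f := by
  obtain ⟨c, hc⟩ := hf.act a
  exact ⟨(c⁻¹ : kˣ), by rw [hc, smul_smul, Units.inv_mul, one_smul]⟩

theorem act_mem_adjoin {S : Set (GA C G)} (hS : ∀ u ∈ S, EV s u) (a : kˣ) {f : GA C G}
    (hf : f ∈ Algebra.adjoin k S) : act s a f ∈ Algebra.adjoin k S := by
  have : Algebra.adjoin k S ≤ (Algebra.adjoin k S).comap (act s a) := by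
    refine Algebra.adjoin_le fun u hu => ?_
    obtain ⟨c, hc⟩ := (hS u hu).act a
    change act s a u ∈ Algebra.adjoin k S
    rw [hc]
    exact Subalgebra.smul_mem _ (Algebra.subset_adjoin hu) _
  exact this hf

/-- decomposition into weight vectors inside the span of the orbit -/
theorem exists_wt_decomp [CharZero k] {c : C} (hc : c ∈ FW s) :
    ∃ D : Finset C, (∀ e ∈ D, (∃ n, Wt s n e) ∧
      e ∈ Submodule.span k (Set.range fun l => s l c)) ∧ c ∈ Submodule.span k (D : Set C) := by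
  classical
  obtain ⟨N, P, hP⟩ := hc
  have hP' : ∀ l : kˣ, ((l : k) ^ N) • s l c =
      ∑ i ∈ Finset.range (P.natDegree + 1), ((l : k) ^ i) • P.coeff i := by
    intro l
    rw [Algebra.smul_def, map_pow, hP, Polynomial.eval_eq_sum_range]
    exact Finset.sum_congr rfl fun i _ => by rw [Algebra.smul_def, map_pow, mul_comm]
  refine ⟨(Finset.range (P.natDegree + 1)).image P.coeff, ?_, ?_⟩
  · intro e he
    obtain ⟨i, hi, rfl⟩ := Finset.mem_image.1 he
    refine ⟨⟨(i : ℤ) - N, fun m => ?_⟩, ?_⟩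
    · have key : Polynomial.C (algebraMap k C m ^ N) * P.map (s m : C →+* C) =
          P.comp (Polynomial.C (algebraMap k C m) * Polynomial.X) := by
        refine poly_ext (k := k) fun l => ?_
        have h1 := congrArg (s m) (hP l)
        have h2 := hP (m * l)
        rw [map_mul, map_pow, AlgEquiv.commutes, ← AlgEquiv.mul_apply, ← map_mul] at h1
        have h3 : s m (P.eval (algebraMap k C l)) =
            (P.map (s m : C →+* C)).eval (algebraMap k C l) := by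
          conv_rhs => rw [← (s m).commutes (l : k)]
          exact (Polynomial.eval_map_apply (s m : C →+* C) _).symm
        rw [Polynomial.eval_mul, Polynomial.eval_C, ← h3, ← h1, Polynomial.eval_comp,
          Polynomial.eval_mul, Polynomial.eval_C, Polynomial.eval_X, ← map_mul, ← Units.val_mul,
          ← h2, Units.val_mul, map_mul (algebraMap k C), mul_pow, mul_assoc]
      have h1 := congrArg (fun Q => Polynomial.coeff Q i) key
      simp only [Polynomial.coeff_C_mul, Polynomial.coeff_map, Polynomial.comp_C_mul_X_coeff,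
        RingHom.coe_coe] at h1
      have hm := algebraMap_unit_ne (C := C) m
      rw [Algebra.smul_def, Units.val_zpow_eq_zpow_val, map_zpow₀, zpow_sub₀ hm, zpow_natCast,
        zpow_natCast]
      field_simp
      linear_combination h1
    · rw [← Subspace.forall_mem_dualAnnihilator_apply_eq_zero_iff]
      intro φ hφ
      let Q : Polynomial k := ∑ j ∈ Finset.range (P.natDegree + 1),
        Polynomial.monomial j (φ (P.coeff j))
      have hQ : Q = 0 := by
        refine poly_ext (k := k) (C := k) fun l => ?_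
        have h1 := congrArg φ (hP' l)
        rw [map_smul, (Submodule.mem_dualAnnihilator φ).1 hφ _ (Submodule.subset_span ⟨l, rfl⟩),
          smul_zero, map_sum] at h1
        rw [Polynomial.eval_zero, h1, Polynomial.eval_finsetSum]
        exact Finset.sum_congr rfl fun j _ => by
          rw [Polynomial.eval_monomial, map_smul, smul_eq_mul, mul_comm]; rfl
      have h1 := congrArg (fun Q => Polynomial.coeff Q i) hQ
      simpa [Q, Polynomial.finsetSum_coeff, Polynomial.coeff_monomial, hi] using h1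
  · have h1 := hP' 1
    simp only [Units.val_one, one_pow, one_smul, map_one, AlgEquiv.one_apply] at h1
    rw [h1]
    exact sum_mem fun i hi => Submodule.subset_span (Finset.mem_image_of_mem _ hi)

/-- the same for homogeneous elements of an equivariant algebra -/
theorem exists_ev_decomp [CharZero k] {S : Set (GA C G)} (hS : ∀ u ∈ S, EV s u) {f : GA C G}
    (hf : f ∈ Algebra.adjoin k S) (hh : IsH f) :
    ∃ D : Finset (GA C G), (∀ e ∈ D, EV s e) ∧ f ∈ Submodule.span k (D : Set (GA C G)) ∧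
      (EV s f → f ∈ D) ∧ ∀ V : Submodule k (GA C G), (∀ a, ∀ g ∈ V, act s a g ∈ V) → f ∈ V →
        ∀ e ∈ D, e ∈ V := by
  classical
  by_cases he : EV s f
  · refine ⟨{f}, by simpa using he, Submodule.subset_span (by simp), fun _ => by simp, ?_⟩
    intro V _ hV e h1
    rwa [Finset.mem_singleton.1 h1]
  obtain ⟨μ, c, rfl⟩ := hh
  obtain ⟨D, hD, hc⟩ := exists_wt_decomp (Emb.single_mem_SA.1 (adjoin_le_SA hS hf))
  let ι : C →ₗ[k] GA C G := lsingle μ
  have hι : ∀ x, ι x = single μ x := fun _ => rfl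
  refine ⟨D.image ι, ?_, ?_, fun h => absurd h he, ?_⟩
  · intro e h1
    obtain ⟨x, hx, rfl⟩ := Finset.mem_image.1 h1
    obtain ⟨n, hn⟩ := (hD x hx).1
    exact ⟨μ, x, n, rfl, hn⟩
  · rw [Finset.coe_image, ← Submodule.map_span, ← hι]
    exact Submodule.mem_map_of_mem hc
  · intro V hV h0 e h1
    obtain ⟨x, hx, rfl⟩ := Finset.mem_image.1 h1
    have : Submodule.span k (Set.range fun l => s l c) ≤ V.comap ι := by
      refine Submodule.span_le.2 ?_
      rintro _ ⟨l, rfl⟩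
      change ι (s l c) ∈ V
      rw [hι, ← act_single]
      exact hV l _ h0
    exact this (hD x hx).2

theorem map_mem_span {O O' : Subalgebra k (GA C G)} (τ : GA C G →ₐ[k] GA C G)
    (hτ : ∀ f ∈ O, τ f ∈ O') {S S' : Set (GA C G)} (hS : ∀ a ∈ S, τ a ∈ Submodule.span O' S')
    {f : GA C G} (hf : f ∈ Submodule.span O S) : τ f ∈ Submodule.span O' S' := by
  induction hf using Submodule.span_induction with
  | mem a ha => exact hS a ha
  | zero => rw [map_zero]; exact zero_mem _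
  | add a b _ _ ha hb => rw [map_add]; exact add_mem ha hb
  | smul r a _ ha =>
    change τ ((r : GA C G) * a) ∈ _
    rw [map_mul]
    exact G1.mul_mem_sub (hτ _ r.2) ha

theorem map_mem_filt {O O' : Subalgebra k (GA C G)} (τ : GA C G →ₐ[k] GA C G)
    (hτ : ∀ f ∈ O, τ f ∈ O') {ι : Type} [Fintype ι] {z : ι → GA C G} {w : ι → ℚ} {c : ℚ}
    {f : GA C G} (hf : f ∈ filt O z w c) : τ f ∈ filt O' (fun i => τ (z i)) w c := by
  refine map_mem_span τ hτ ?_ hf
  rintro _ ⟨γ, hγ, rfl⟩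
  exact Submodule.subset_span ⟨γ, hγ, by simp only [map_prod, map_pow]⟩

theorem smul_mem_sub {O : Subalgebra k (GA C G)} {N : Submodule O (GA C G)} (c : k)
    {f : GA C G} (hf : f ∈ N) : c • f ∈ N := by
  rw [Algebra.smul_def]
  exact G1.mul_mem_sub (O.algebraMap_mem c) hf

/-- transport of a competitor -/
theorem comp_act {L L' : Loc k C G} {a : kˣ} (h1 : ∀ f ∈ L.O, act s a f ∈ L'.O)
    (h2 : ∀ f ∈ L'.O, act s a⁻¹ f ∈ L.O) {ε : GA C G} {I : Set (GA C G)} (hε : EV s ε)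
    (hI : ∀ f ∈ I, EV s f) {d : ℕ} {z : Fin d → GA C G} {w : Fin d → ℚ} {t : Fin d → Bool}
    (h : Comp L ε I ⟨z, w, t⟩) : Comp L' ε I ⟨fun i => act s a (z i), w, t⟩ := by
  have hp : ∀ i f, f ∈ prin L.O (z i) → act s a f ∈ prin L'.O (act s a (z i)) := fun i f hf =>
    map_mem_span _ h1 (by rintro _ rfl; exact Submodule.subset_span rfl) hf
  refine ⟨⟨fun i => h1 _ (h.shape.mem i), fun i => isH_act a (h.shape.hom i), h.shape.nonneg,
    h.shape.sorted, h.shape.t_pos⟩, fun i hi => ?_, fun i hi => ⟨?_, ?_⟩, fun f hf => ?_⟩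
  · by_contra hm
    obtain ⟨g, hg, hzg⟩ := L'.unit _ (h1 _ (h.shape.mem i)) (isH_act a (h.shape.hom i)) hm
    have h3 := congrArg (act s a⁻¹) hzg
    rw [map_mul, act_inv_act, map_one] at h3
    exact L.one_notMem (h3 ▸ G1.mul_mem_sub' (h2 g hg) (h.mem_m i hi))
  · intro x hx y hy hxh hyh hxy
    have h3 : act s a⁻¹ (x * y) ∈ prin L.O (z i) := map_mem_span _ h2 (by
      rintro _ rfl
      rw [act_inv_act]
      exact Submodule.subset_span rfl) hxy
    rw [map_mul] at h3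
    rcases (h.div i hi).1 _ (h2 x hx) _ (h2 y hy) (isH_act _ hxh) (isH_act _ hyh) h3 with h4 | h4
    · exact Or.inl (act_act_inv (s := s) a x ▸ hp i _ h4)
    · exact Or.inr (act_act_inv (s := s) a y ▸ hp i _ h4)
  · obtain ⟨c, hc⟩ := hε.act' a
    rw [hc]
    exact smul_mem_sub c (hp i _ (h.div i hi).2)
  · obtain ⟨c, hc⟩ := (hI f hf).act' a
    rw [hc]
    exact smul_mem_sub c (map_mem_filt _ h1 (h.adm f hf))

section Points

variable {R : Subalgebra k (GA C G)} (hR : ∀ a, ∀ f ∈ R, act s a f ∈ R)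

/-- the translate of a point -/
def mv (a : kˣ) (q : R →ₐ[k] k) : R →ₐ[k] k :=
  q.comp (((act s a).comp R.val).codRestrict R fun f => hR a f f.2)

theorem mv_apply (a : kˣ) (q : R →ₐ[k] k) (f : R) : mv hR a q f = q ⟨act s a f, hR a f f.2⟩ := rfl

theorem act_mem_loc (a : kˣ) (q : R →ₐ[k] k) {f : GA C G} (hf : f ∈ loc R (mv hR a q)) :
    act s a f ∈ loc R q := by
  obtain ⟨b, hb, hq, hbf⟩ := hf
  refine ⟨⟨act s a b, hR a b b.2⟩, isH_act a hb, hq, ?_⟩
  change act s a b * act s a f ∈ R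
  rw [← map_mul]
  exact hR a _ hbf

theorem act_inv_mem_loc (a : kˣ) (q : R →ₐ[k] k) {f : GA C G} (hf : f ∈ loc R q) :
    act s a⁻¹ f ∈ loc R (mv hR a q) := by
  refine act_mem_loc hR a⁻¹ _ ?_
  have : mv hR a⁻¹ (mv hR a q) = q := by
    ext g
    rw [mv_apply, mv_apply]
    exact congrArg q (Subtype.ext (act_act_inv a _))
  rwa [this]

theorem nz_mv (a : kˣ) {q : R →ₐ[k] k} {h : GA C G} (he : EV s h) (hq : NZ q h) :
    NZ (mv hR a q) h := by
  obtain ⟨hh, hq⟩ := hq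
  obtain ⟨c, hc⟩ := he.act a
  refine ⟨hh, ?_⟩
  have : (⟨act s a h, hR a h hh⟩ : R) = (c : k) • ⟨h, hh⟩ := Subtype.ext hc
  rw [mv_apply, this, map_smul]
  exact smul_ne_zero c.ne_zero hq

end Points

/-- the elements of `R` which lie in the filtration of all competitors of type `(w, t)` -/
def cenSub {R : Subalgebra k (GA C G)} {M : AddSubgroup G} (h : Good R M) (U : Set (R →ₐ[k] k))
    (ε : GA C G) (I : Set (GA C G)) {d : ℕ} (w : Fin d → ℚ) (t : Fin d → Bool) (W : Fin d → ℕ)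
    (b : ℕ) : Submodule k (GA C G) where
  carrier := {f | f ∈ R ∧ ∀ q ∈ U, ∀ z, Comp (locOf h q) ε I ⟨z, w, t⟩ →
    f ∈ filt (loc R q) z (fun i => (W i : ℚ)) b}
  add_mem' := fun hf hg => ⟨add_mem hf.1 hg.1, fun q hq z hz =>
    add_mem (hf.2 q hq z hz) (hg.2 q hq z hz)⟩
  zero_mem' := ⟨zero_mem _, fun _ _ _ _ => zero_mem _⟩
  smul_mem' := fun c _ hf => ⟨R.smul_mem hf.1 c, fun q hq z hz => smul_mem_sub c (hf.2 q hq z hz)⟩

theorem centre_ev [CharZero k] (tl : G1.Tools k C G) {S : Set (GA C G)} (hS : ∀ u ∈ S, EV s u)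
    {M : AddSubgroup G} {h : Good (Algebra.adjoin k S) M} {U : Set (Algebra.adjoin k S →ₐ[k] k)}
    (hU : ∀ a, ∀ q ∈ U, mv (fun a _ hf => act_mem_adjoin hS a hf) a q ∈ U) {ε : GA C G}
    {I T : Set (GA C G)} {d : ℕ} (St : G1.Setup h U ε I T d) (hε : EV s ε) (hI : ∀ f ∈ I, EV s f)
    {w : Fin d → ℚ} {t : Fin d → Bool} {a : ℕ} {W : Fin d → ℕ} {n : ℕ} {g : Fin n → GA C G}
    {e : Fin n → ℕ} (Z : G1.Centre h U ε I T w t a W g e) :
    ∃ (n' : ℕ) (g' : Fin n' → GA C G) (e' : Fin n' → ℕ),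
      G1.Centre h U ε I T w t a W g' e' ∧ ∀ j, EV s (g' j) := by
  classical
  have hR : ∀ a, ∀ f ∈ Algebra.adjoin k S, act s a f ∈ Algebra.adjoin k S :=
    fun a _ hf => act_mem_adjoin hS a hf
  have ha' : (0 : ℚ) < a := Nat.cast_pos.2 Z.a_pos
  have hst : ∀ b l, ∀ f ∈ cenSub h U ε I w t W b, act s l f ∈ cenSub h U ε I w t W b := by
    intro b l f hf
    refine ⟨hR l f hf.1, fun q hq z hz => ?_⟩
    have h1 := comp_act (L := locOf h q) (L' := locOf h (mv hR l q)) (a := l⁻¹)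
      (fun f hf => act_inv_mem_loc hR l q hf)
      (fun f hf => by rw [inv_inv]; exact act_mem_loc hR l q hf) hε hI hz
    have h2 := map_mem_filt (act s l) (fun f hf => act_mem_loc hR l q hf)
      (hf.2 _ (hU l q hq) _ h1)
    simpa only [act_act_inv] using h2
  have hg : ∀ j, g j ∈ cenSub h U ε I w t W (e j) := by
    intro j
    refine ⟨Z.g_mem j, fun q hq z hz => ?_⟩
    rcases Z.cases q hq with ⟨c, hc, -, hg, -⟩ | ⟨-, ⟨f, hf, hm⟩ | ⟨J, hc, hlt⟩⟩
    · obtain ⟨-, -, -, he⟩ := tl.ub _ ε I T d _ _ St.ε_ne St.ε_hom hc hz le_rfl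
      have hsc : ∀ x : Fin d → GA C G, filt (loc _ q) x (fun i => (W i : ℚ)) (e j) =
          filt (loc _ q) x w (e j / a) := fun x => by
        rw [← G1.filt_scale _ x ha' Z.W_eq, mul_div_cancel₀ _ ha'.ne']
      rw [hsc]
      exact (he _).ge (hsc c.x ▸ hg j)
    · exact absurd (G1.Comp_mem_m hz hf) hm
    · exact absurd (G1.inv_le_of_cert tl.ub St.ε_ne St.ε_hom hc hz) (not_le.2 hlt)
  choose D hD1 hD2 hD3 hD4 using fun j => exists_ev_decomp hS (Z.g_mem j) (Z.g_hom j)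
  let P : Finset (GA C G × ℕ) := Finset.univ.biUnion fun j => (D j).image fun f => (f, e j)
  have hP : ∀ p : GA C G × ℕ, p ∈ P ↔ ∃ j, p.1 ∈ D j ∧ p.2 = e j := by
    rintro ⟨f, b⟩
    simp only [P, Finset.mem_biUnion, Finset.mem_univ, true_and, Finset.mem_image, Prod.mk.injEq]
    exact exists_congr fun j => ⟨fun ⟨x, hx, h1, h2⟩ => ⟨h1 ▸ hx, h2.symm⟩,
      fun ⟨h1, h2⟩ => ⟨f, h1, rfl, h2.symm⟩⟩
  let E := P.equivFin.symm
  have hE : ∀ i, ∃ j, (E i : GA C G × ℕ).1 ∈ D j ∧ (E i : GA C G × ℕ).2 = e j :=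
    fun i => (hP _).1 (E i).2
  have hE' : ∀ j, ∀ f ∈ D j, ∃ i, (E i : GA C G × ℕ).2 = e j ∧ (E i : GA C G × ℕ).1 = f :=
    fun j f hf => ⟨E.symm ⟨(f, e j), (hP _).2 ⟨j, hf, rfl⟩⟩, by rw [Equiv.apply_symm_apply],
      by rw [Equiv.apply_symm_apply]⟩
  have hN : ∀ i, (E i : GA C G × ℕ).1 ∈ cenSub h U ε I w t W (E i : GA C G × ℕ).2 := by
    intro i
    obtain ⟨j, h1, h2⟩ := hE i
    rw [h2]
    exact hD4 j _ (hst _) (hg j) _ h1
  have hV : ∀ (O : Subalgebra k (GA C G)) (N : Submodule O (GA C G)) j,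
      (∀ f ∈ D j, f ∈ N) → g j ∈ N := by
    intro O N j hj
    refine Submodule.span_induction (p := fun x _ => x ∈ N) hj (zero_mem _)
      (fun _ _ _ _ => add_mem) (fun c _ _ => smul_mem_sub c) (hD2 j)
  have hEV : ∀ i, EV s (E i : GA C G × ℕ).1 := fun i => (hE i).elim fun j h1 => hD1 j _ h1.1
  refine ⟨P.card, fun i => (E i : GA C G × ℕ).1, fun i => (E i : GA C G × ℕ).2,
    ⟨Z.a_pos, Z.W_eq, Z.W_le, fun i => (hN i).1, fun i => (hEV i).isH, fun i => ?_,
      fun f hf => ?_, fun q hq => ?_⟩, hEV⟩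
  · obtain ⟨j, -, h2⟩ := hE i
    rw [h2]
    exact Z.e_pos j
  · obtain ⟨j, h1, rfl⟩ := Z.I_mem f hf
    rw [← h1]
    exact hE' j _ (hD3 j (hI _ hf))
  · rcases Z.cases q hq with ⟨c, hc, hp, -, hx⟩ | ⟨⟨j, hj, hm⟩, h2⟩
    · refine Or.inl ⟨c, hc, hp, fun i => (hN i).2 q hq _ hp, fun b h1 h2 => (hx b h1 h2).trans ?_⟩
      refine Submodule.span_le.2 ?_
      rintro _ ⟨j, rfl, rfl⟩
      refine hV _ _ j fun f hf => ?_
      obtain ⟨i, h3, h4⟩ := hE' j f hf
      exact Submodule.subset_span ⟨i, h3, h4.symm⟩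
    · refine Or.inr ⟨?_, h2⟩
      by_contra hcon
      push Not at hcon
      refine hm (hV _ _ j fun f hf => ?_)
      obtain ⟨i, h3, h4⟩ := hE' j f hf
      exact h4 ▸ hcon i (h3.trans hj)

theorem centreEV (k : Type) [Field k] [IsAlgClosed k] [CharZero k] : CentreEV k := by
  intro C F _ _ _ _ S π N y B d s tl X I St hX hI w t hA hB
  obtain ⟨a, W, n, g, e, Z⟩ := St.exists_centre tl hA hB
  obtain ⟨n', g', e', Z', h'⟩ := centre_ev (s := s) tl hX.gens (h := X.good)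
    (U := {q | X.IsPt q})
    (fun l q ⟨f, hf, hq⟩ => ⟨f, hf, nz_mv _ l (hX.hs f hf) hq⟩) St hX.ε hI Z
  exact ⟨a, W, n', g', e', Z', h'⟩

end Crest.Agent.X262.Res
end
end

-- ▼ part X262/Res/StartA
section

/-!
# Row 262, squad RES+ (helper39): coordinates adapted to a smooth subvariety and a boundary

`exists_adapted`: if `ρ : P → O` is a local surjection of local rings with coordinates and
`ρ (b j)` are distinct coordinates of `O` up to units, then `P` has coordinates which contain the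
`b j` and generators of the kernel of `ρ`.
-/

set_option autoImplicit false

noncomputable section

namespace Crest.Agent.X262.Res.StA

open Crest.Agent.X277.Res Crest.Agent.X277.Res.Out IsLocalRing

variable {k C F : Type} [Field k] [Field C] [Algebra k C] [Field F] [Algebra k F]

theorem Van.neg {P : Subalgebra k C} {x : C} (hx : Van P x) : Van P (-x) := by
  have := Van.mul_left (neg_mem (one_mem P)) hx
  rwa [neg_one_mul] at this

theorem Van.mul_right {P : Subalgebra k C} {x y : C} (hx : Van P x) (hy : y ∈ P) :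
    Van P (x * y) := by
  rw [mul_comm]; exact Van.mul_left hy hx

/-- the derivative of a combination of coordinates -/
theorem der_comb {P : Subalgebra k C} [IsLocalRing P] {N : ℕ} {τ : Fin N → C}
    (hv : ∀ l, Van P (τ l)) {d : Fin N → Derivation k C C} (hd : ∀ l, ∀ x ∈ P, d l x ∈ P)
    (hdt : ∀ l j, d l (τ j) = if l = j then 1 else 0) {r : Fin N → C} (hr : ∀ i, r i ∈ P)
    (l : Fin N) : Van P (d l (∑ i, r i * τ i) - r l) := by
  have h1 : r l = ∑ i, r i * d l (τ i) := by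
    simp only [hdt, mul_ite, mul_one, mul_zero, Finset.sum_ite_eq, Finset.mem_univ, if_true]
  rw [map_sum, h1, ← Finset.sum_sub_distrib]
  refine Van.sum _ fun i _ => ?_
  rw [Derivation.leibniz, smul_eq_mul, smul_eq_mul, add_sub_cancel_left]
  exact Van.mul_right (hv i) (hd l _ (hr i))

/-- exchange of a coordinate -/
theorem coords_update {P : Subalgebra k C} [IsLocalRing P] (ε : P →ₐ[k] k)
    (hε : ∀ x : P, ε x = 0 ↔ Van P x) {N : ℕ} {τ : Fin N → C} (h : Coords P τ)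
    {r : Fin N → C} (hr : ∀ i, r i ∈ P) {l : Fin N} (hl : Un P (r l)) :
    Coords P (Function.update τ l (∑ i, r i * τ i)) := by
  classical
  set y := ∑ i, r i * τ i with hy
  have hyv : Van P y := Van.sum _ fun i _ => Van.mul_left (hr i) (h.van i)
  have hvan : ∀ j, Van P (Function.update τ l y j) := fun j => by
    by_cases hj : j = l
    · rw [hj, Function.update_self]; exact hyv
    · rw [Function.update_of_ne hj]; exact h.van j
  refine ⟨hvan, fun x hx => ?_, ?_⟩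
  · obtain ⟨s, hs, rfl⟩ := h.gen x hx
    refine ⟨fun i => if i = l then s l / r l else s i - s l * r i / r l, fun i => ?_, ?_⟩
    · have h1 : ∀ a ∈ P, a / r l ∈ P := fun a ha => by
        rw [div_eq_mul_inv]; exact mul_mem ha hl.2.2
      dsimp only
      split_ifs
      · exact h1 _ (hs l)
      · exact sub_mem (hs i) (h1 _ (mul_mem (hs l) (hr i)))
    · have h0 := hl.1
      dsimp only
      rw [← Finset.add_sum_erase _ _ (Finset.mem_univ l),
        ← Finset.add_sum_erase _ _ (Finset.mem_univ l), if_pos rfl, Function.update_self, hy,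
        ← Finset.add_sum_erase _ _ (Finset.mem_univ l), mul_add, Finset.mul_sum, add_assoc,
        ← Finset.sum_add_distrib]
      congr 1
      · field_simp
      · refine Finset.sum_congr rfl fun i hi => ?_
        have hi' := Finset.ne_of_mem_erase hi
        rw [if_neg hi', Function.update_of_ne hi']
        field_simp
        ring
  · obtain ⟨d, hd, hdt⟩ := h.der
    let d' : Fin N → Derivation k C C := fun i =>
      if i = l then (r l)⁻¹ • d l else d i - (r i * (r l)⁻¹) • d l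
    have hd' : ∀ i, ∀ x ∈ P, d' i x ∈ P := fun i x hx => by
      simp only [d']
      split_ifs
      · exact mul_mem hl.2.2 (hd l x hx)
      · exact sub_mem (hd i x hx) (mul_mem (mul_mem (hr i) hl.2.2) (hd l x hx))
    refine exists_dual ε (fun x hx => ?_) _ (fun j => (hvan j).1) d' hd' fun i j => ?_
    · by_contra hu
      exact hx ((hε x).2 ⟨x.2, hu⟩)
    · have key : Van P (d' i (Function.update τ l y j) - if i = j then 1 else 0) := by
        by_cases hj : j = l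
        · subst hj
          rw [Function.update_self]
          have h1 := der_comb h.van hd hdt hr j
          by_cases hi : i = j
          · subst hi
            have h2 : d' i y - 1 = (r i)⁻¹ * (d i y - r i) := by
              simp only [d', if_true, Derivation.smul_apply, smul_eq_mul]
              rw [mul_sub, inv_mul_cancel₀ hl.1]
            rw [if_pos rfl, h2]
            exact Van.mul_left hl.2.2 h1
          · have h2 : d' i y - 0 = (d i y - r i) + -(r i * (r j)⁻¹ * (d j y - r j)) := by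
              simp only [d', if_neg hi, Derivation.sub_apply, Derivation.smul_apply, smul_eq_mul]
              rw [mul_sub, mul_assoc (r i) _ (r j), inv_mul_cancel₀ hl.1]
              ring
            rw [if_neg hi, h2]
            exact (der_comb h.van hd hdt hr i).add
              (Van.neg (Van.mul_left (mul_mem (hr i) hl.2.2) h1))
        · rw [Function.update_of_ne hj]
          have h2 : d' i (τ j) = if i = j then 1 else 0 := by
            simp only [d']
            split_ifs with h1 h3 h3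
            · exact absurd (h3.symm.trans h1) hj
            · simp [hdt, Ne.symm hj]
            · simp [hdt, Ne.symm hj, h3]
            · simp [hdt, Ne.symm hj, h3]
          rw [h2, sub_self]
          exact van_zero
      have h3 : (⟨_, key.1⟩ : P) = ⟨_, hd' i _ (hvan j).1⟩ - if i = j then 1 else 0 := by
        apply Subtype.ext
        split_ifs <;> rfl
      have h4 := (hε ⟨_, key.1⟩).2 key
      rw [h3, map_sub, sub_eq_zero] at h4
      rw [h4]
      split_ifs <;> simp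

section Indep

variable {O : Subalgebra k F} [IsLocalRing O] {n : ℕ} {t : Fin n → F}

/-- distinct coordinates are independent modulo the square of the maximal ideal -/
theorem coef_mem (ht : Coords O t) {β : Type} [Fintype β] {σ : β → Fin n}
    (hσ : Function.Injective σ) (g : β → O) (hg : ∀ j, Un O ((g j : F) / t (σ j))) (a : β → O)
    (h : ∑ j, a j * g j ∈ maximalIdeal O ^ 2) (j : β) : a j ∈ maximalIdeal O := by
  classical
  obtain ⟨d, hd⟩ := ht.exists_der
  let u : β → O := fun j => ⟨_, (hg j).2.1⟩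
  have hgu : ∀ j, g j = u j * ht.el (σ j) := fun j =>
    Subtype.ext (div_mul_cancel₀ _ (ht.ne_zero _)).symm
  have htm : ∀ l, ht.el l ∈ maximalIdeal O := fun l => (van_iff_mem_max _).1 (ht.van l)
  have h1 := SmCrit.der_mem_pow (d (σ j)) (maximalIdeal O) 1 h
  rw [pow_one, map_sum] at h1
  have h2 : ∑ i, d (σ j) (a i * g i) - a j * u j ∈ maximalIdeal O := by
    have h3 : a j * u j = ∑ i, a i * u i * d (σ j) (ht.el (σ i)) := by
      simp only [hd, hσ.eq_iff, mul_ite, mul_one, mul_zero, Finset.sum_ite_eq, Finset.mem_univ,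
        if_true]
    rw [h3, ← Finset.sum_sub_distrib]
    refine Ideal.sum_mem _ fun i _ => ?_
    rw [hgu, ← mul_assoc, Derivation.leibniz, smul_eq_mul, smul_eq_mul, add_sub_cancel_left]
    exact Ideal.mul_mem_right _ _ (htm _)
  have h3 : a j * u j ∈ maximalIdeal O := by simpa using sub_mem h1 h2
  refine ((maximalIdeal.isMaximal O).isPrime.mem_or_mem h3).resolve_right fun h4 => ?_
  exact ((van_iff_mem_max (u j)).2 h4).2 (hg j)

end Indep

section Main

variable {P : Subalgebra k C} {O : Subalgebra k F} [IsLocalRing P] [IsLocalRing O]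
  {ε : P →ₐ[k] k} {ρ : P →ₐ[k] O} {N n : ℕ} {t : Fin n → F} {β : Type} [Fintype β]
  {b : β → P} {σ : β → Fin n}

/-- splitting a combination of coordinates along the coordinates `e j`, `j ∈ s` -/
theorem sum_split [DecidableEq β] {M : Type} [AddCommMonoid M] {e : β → Fin N} {s : Finset β}
    (he : Set.InjOn e s) (f : Fin N → M) :
    ∑ i, f i = ∑ j, (if j ∈ s then f (e j) else 0) + ∑ i ∈ (s.image e)ᶜ, f i := by
  rw [← Finset.sum_add_sum_compl (s.image e), Finset.sum_image he, Finset.sum_ite_mem,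
    Finset.univ_inter]

theorem exists_ins (hε : ∀ x : P, ε x = 0 ↔ Van P x) (hloc : ∀ x : P, ε x = 0 ↔ Van O (ρ x))
    {τ : Fin N → C} (hτ : Coords P τ) (ht : Coords O t) (hσ : Function.Injective σ)
    (hb : ∀ j, Un O ((ρ (b j) : F) / t (σ j))) (s : Finset β) :
    ∃ (τ' : Fin N → C) (e : β → Option (Fin N)), Coords P τ' ∧
      (∀ j ∈ s, ∃ l, e j = some l ∧ τ' l = b j) ∧ ∀ j ∈ s, ∀ j' ∈ s, e j = e j' → j = j' := by
  classical
  have hρm : ∀ x : P, Van P x → ρ x ∈ maximalIdeal O := fun x hx =>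
    (van_iff_mem_max _).1 ((hloc x).1 ((hε x).2 hx))
  induction s using Finset.induction_on with
  | empty => exact ⟨τ, fun _ => none, hτ, by simp, by simp⟩
  | insert j s hj ih =>
    obtain ⟨τ', e, hτ', he, hinj⟩ := ih
    have hbv : Van P (b j) := (hε _).1 ((hloc _).2 (by
      have h1 : (ρ (b j) : F) = ρ (b j) / t (σ j) * t (σ j) :=
        (div_mul_cancel₀ _ (ht.ne_zero _)).symm
      rw [h1]
      exact Van.mul_left (hb j).2.1 (ht.van _)))
    obtain ⟨r, hr, hbr⟩ := hτ'.gen _ hbv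
    have hex : ∃ l, (∀ j' ∈ s, e j' ≠ some l) ∧ Un P (r l) := by
      by_contra hcon
      push Not at hcon
      rcases isEmpty_or_nonempty (Fin N) with hN | ⟨⟨l0⟩⟩
      · have h0 : b j = 0 := Subtype.ext (by rw [hbr]; simp)
        have h1 := (hb j).1
        rw [h0, map_zero] at h1
        simp at h1
      let e' : β → Fin N := fun j' => (e j').getD l0
      have he' : ∀ j' ∈ s, e j' = some (e' j') ∧ τ' (e' j') = b j' := fun j' hj' => by
        obtain ⟨l, h1, h2⟩ := he j' hj'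
        have h3 : e' j' = l := by simp [e', h1]
        rw [h3]; exact ⟨h1, h2⟩
      have hinj' : Set.InjOn e' s := fun a ha a' ha' h =>
        hinj a ha a' ha' (by rw [(he' a ha).1, (he' a' ha').1, h])
      let r' : Fin N → P := fun i => ⟨r i, hr i⟩
      have h1 : b j = ∑ i, r' i * hτ'.el i := Subtype.ext (by
        rw [hbr, AddSubmonoidClass.coe_finsetSum]; rfl)
      let a : β → O := fun j' => if j' = j then 1 else if j' ∈ s then -ρ (r' (e' j')) else 0
      have h2 : ∑ j', a j' * ρ (b j') = ∑ i ∈ (s.image e')ᶜ, ρ (r' i) * ρ (hτ'.el i) := by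
        have h3 := congrArg ρ h1
        rw [map_sum, sum_split hinj'] at h3
        simp only [map_mul] at h3
        rw [← sub_eq_iff_eq_add'] at h3
        rw [← h3, ← Finset.add_sum_erase _ _ (Finset.mem_univ j),
          ← Finset.add_sum_erase _ (fun j' => if j' ∈ s then _ else _) (Finset.mem_univ j),
          if_neg hj, zero_add, sub_eq_add_neg, ← Finset.sum_neg_distrib]
        congr 1
        · simp [a]
        · refine Finset.sum_congr rfl fun j' hj' => ?_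
          simp only [a, if_neg (Finset.ne_of_mem_erase hj')]
          split_ifs with h4
          · rw [show hτ'.el (e' j') = b j' from Subtype.ext (he' j' h4).2, neg_mul]
          · simp
      have h3 := coef_mem ht hσ (fun j' => ρ (b j')) hb a (by
        rw [h2, pow_two]
        refine Ideal.sum_mem _ fun i hi => Ideal.mul_mem_mul (hρm _ ⟨hr i, hcon i ?_⟩)
          (hρm _ (hτ'.van i))
        intro j' hj' h4
        refine Finset.mem_compl.1 hi (Finset.mem_image.2 ⟨j', hj', ?_⟩)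
        exact Option.some.inj ((he' j' hj').1.symm.trans h4)) j
      simp only [a, if_true] at h3
      exact (maximalIdeal.isMaximal O).ne_top ((Ideal.eq_top_iff_one _).2 h3)
    obtain ⟨l, hl, hu⟩ := hex
    have h1 := coords_update ε hε hτ' hr hu
    rw [← hbr] at h1
    refine ⟨_, Function.update e j (some l), h1, fun j' hj' => ?_, fun a ha a' ha' h => ?_⟩
    · rcases Finset.mem_insert.1 hj' with rfl | hj'
      · exact ⟨l, Function.update_self _ _ _, Function.update_self _ _ _⟩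
      · obtain ⟨l', h2, h3⟩ := he j' hj'
        have h4 : j' ≠ j := fun h => hj (h ▸ hj')
        refine ⟨l', by rw [Function.update_of_ne h4, h2], ?_⟩
        have h5 : l' ≠ l := fun h => hl j' hj' (h ▸ h2)
        rw [Function.update_of_ne h5, h3]
    · have hne : ∀ x ∈ s, x ≠ j := fun x hx h => hj (h ▸ hx)
      rcases Finset.mem_insert.1 ha with h2 | h2 <;> rcases Finset.mem_insert.1 ha' with h3 | h3
      · rw [h2, h3]
      · rw [h2, Function.update_self, Function.update_of_ne (hne _ h3)] at h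
        exact absurd h.symm (hl _ h3)
      · rw [h3, Function.update_self, Function.update_of_ne (hne _ h2)] at h
        exact absurd h (hl _ h2)
      · rw [Function.update_of_ne (hne _ h2), Function.update_of_ne (hne _ h3)] at h
        exact hinj _ h2 _ h3 h

/-- **adapted coordinates** -/
theorem exists_adapted [CharZero k] [IsNoetherianRing P] (hε : ∀ x : P, ε x = 0 ↔ Van P x)
    (hρ : Function.Surjective ρ) (hloc : ∀ x : P, ε x = 0 ↔ Van O (ρ x))
    {τ : Fin N → C} (hτ : Coords P τ) (ht : Coords O t) (hσ : Function.Injective σ)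
    (hb : ∀ j, Un O ((ρ (b j) : F) / t (σ j))) :
    ∃ (τ' : Fin N → C) (hτ' : Coords P τ') (A : Set (Fin N)) (e : β → Fin N),
      Function.Injective e ∧ (∀ j, e j ∉ A) ∧ (∀ j, τ' (e j) = b j) ∧
      RingHom.ker ρ = Ideal.span (hτ'.el '' A) := by
  classical
  have hρm : ∀ x : P, Van P x → ρ x ∈ maximalIdeal O := fun x hx =>
    (van_iff_mem_max _).1 ((hloc x).1 ((hε x).2 hx))
  obtain ⟨τ₀, e₀, hτ₀, he₀, hinj₀⟩ := exists_ins hε hloc hτ ht hσ hb Finset.univ
  choose e he1 he2 using fun j => he₀ j (Finset.mem_univ j)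
  have hinj : Function.Injective e := fun a a' h =>
    hinj₀ a (Finset.mem_univ _) a' (Finset.mem_univ _) (by rw [he1, he1, h])
  let Q : Finset (Fin N) → Prop := fun A => ∃ (τ' : Fin N → C) (hτ' : Coords P τ'),
    (∀ j, e j ∉ A) ∧ (∀ j, τ' (e j) = b j) ∧ ∀ a ∈ A, ρ (hτ'.el a) = 0
  obtain ⟨A, hA, hmax⟩ := Finset.exists_max_image (Finset.univ.filter Q) Finset.card
    ⟨∅, Finset.mem_filter.2 ⟨Finset.mem_univ _, τ₀, hτ₀, by simp, he2, by simp⟩⟩
  obtain ⟨τ', hτ', h1, h2, h3⟩ := (Finset.mem_filter.1 hA).2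
  refine ⟨τ', hτ', A, e, hinj, fun j => by simpa using h1 j, h2, le_antisymm ?_ ?_⟩
  swap
  · rw [Ideal.span_le]
    rintro _ ⟨a, ha, rfl⟩
    exact h3 a ha
  have hM : RingHom.ker ε = maximalIdeal P := by
    ext x
    rw [RingHom.mem_ker, ← van_iff_mem_max]
    exact hε x
  refine Submodule.le_of_le_smul_of_le_jacobson_bot (I := RingHom.ker ε)
    (IsNoetherian.noetherian _) (by rw [hM]; exact maximalIdeal_le_jacobson _) fun f hf => ?_
  have hf0 : ρ f = 0 := hf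
  have hfv : Van P f := (hε f).1 ((hloc f).2 (by rw [hf0]; exact van_zero))
  obtain ⟨r, hr, hfr⟩ := hτ'.gen _ hfv
  let r' : Fin N → P := fun i => ⟨r i, hr i⟩
  have hf1 : f = ∑ i, r' i * hτ'.el i := Subtype.ext (by
    rw [hfr, AddSubmonoidClass.coe_finsetSum]; rfl)
  have hfree : ∀ i, i ∉ A → (∀ j, e j ≠ i) → Van P (r i) := by
    intro i hi hie
    refine ⟨hr i, fun hu => ?_⟩
    have h4 := coords_update ε hε hτ' hr hu
    rw [← hfr] at h4
    have h5 := hmax (insert i A) (Finset.mem_filter.2 ⟨Finset.mem_univ _, _, h4,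
      fun j hj => (Finset.mem_insert.1 hj).elim (hie j) (h1 j),
      fun j => by rw [Function.update_of_ne (hie j), h2], fun a ha => ?_⟩)
    · rw [Finset.card_insert_of_notMem hi] at h5
      omega
    · by_cases h6 : a = i
      · subst h6
        rw [show h4.el a = f from Subtype.ext (Function.update_self _ _ _), hf0]
      · rw [show h4.el a = hτ'.el a from Subtype.ext (Function.update_of_ne h6 _ _)]
        exact h3 a ((Finset.mem_insert.1 ha).resolve_left h6)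
  have hbd : ∀ j, Van P (r (e j)) := by
    intro j
    have h4 := congrArg ρ hf1
    rw [hf0, map_sum, sum_split (s := Finset.univ) hinj.injOn] at h4
    simp only [Finset.mem_univ, if_true, map_mul] at h4
    have h5 := coef_mem ht hσ (fun j' => ρ (b j')) hb (fun j' => ρ (r' (e j'))) (by
      have h6 : ∀ j', hτ'.el (e j') = b j' := fun j' => Subtype.ext (h2 j')
      simp only [h6] at h4
      rw [eq_neg_of_add_eq_zero_left h4.symm, neg_mem_iff, pow_two]
      refine Ideal.sum_mem _ fun i hi => ?_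
      by_cases hiA : i ∈ A
      · rw [h3 i hiA, mul_zero]; exact zero_mem _
      · refine Ideal.mul_mem_mul (hρm _ (hfree i hiA fun j' h7 => ?_)) (hρm _ (hτ'.van i))
        exact Finset.mem_compl.1 hi (Finset.mem_image.2 ⟨j', Finset.mem_univ _, h7⟩)) j
    exact (hε (r' (e j))).1 ((hloc _).2 ((van_iff_mem_max _).2 h5))
  have hrest : ∀ i, i ∉ A → r' i ∈ maximalIdeal P := fun i hi => (van_iff_mem_max (r' i)).1 (by
    by_cases h4 : ∃ j, e j = i
    · obtain ⟨j, rfl⟩ := h4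
      exact hbd j
    · push Not at h4
      exact hfree i hi h4)
  rw [hf1, ← Finset.sum_add_sum_compl A]
  refine Submodule.add_mem_sup (Ideal.sum_mem _ fun a ha =>
    Ideal.mul_mem_left _ _ (Ideal.subset_span ⟨a, ha, rfl⟩)) ?_
  refine SmCrit.ker_inf_sq_le ρ hρ ε (maximalIdeal.isMaximal O).ne_top ht.el ht.span_eq.symm
    (fun x => (hloc x).trans (van_iff_mem_max _)) ht.exists_der.choose ht.exists_der.choose_spec
    ?_ ?_
  · have h4 := congrArg ρ hf1
    rw [hf0, ← Finset.sum_add_sum_compl A, map_add, map_sum,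
      Finset.sum_eq_zero fun a ha => by rw [map_mul, h3 a ha, mul_zero], zero_add] at h4
    exact h4.symm
  · rw [hM, pow_two]
    exact Ideal.sum_mem _ fun i hi => Ideal.mul_mem_mul (hrest i (Finset.mem_compl.1 hi))
      ((van_iff_mem_max _).1 (hτ'.van i))

end Main

end Crest.Agent.X262.Res.StA
end
end

-- ▼ part X262/Res/StartB
section

/-!
# Row 262, squad RES+ (helper39): from coordinates of the degree zero part to graded coordinates,
and the centre of a smooth subvariety transversal to the boundary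
-/

set_option autoImplicit false

noncomputable section

namespace Crest.Agent.X262.Res.StB

open AddMonoidAlgebra Crest.Agent.X277.Res Crest.Agent.X277.Res.Gr Crest.Agent.X277.Res.Out

section Ctr

variable {k C G : Type} [Field k] [Field C] [Algebra k C] [AddCommGroup G]

/-- a free direction is logarithmic along the boundary -/
theorem D_eps_mem {L : Loc k C G} {ε : GA C G} {T : Set (GA C G)} {ι : Type} [Fintype ι]
    [DecidableEq ι] (c : Coord L ε T ι) {a : ι} (ha : c.n a = 0) : c.D a ε ∈ prin L.O ε := by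
  obtain ⟨g, hg, hug⟩ := L.unit c.u c.u_mem c.u_hom c.u_notMem
  have h1 : c.D a (∏ i, c.x i ^ c.n i) = 0 := by
    refine Finset.prod_induction _ (fun z => c.D a z = 0) (fun _ _ => BL.der_mul_zero)
      (Derivation.map_one_eq_zero _) fun i _ => ?_
    by_cases h : a = i
    · rw [← h, ha, pow_zero]; exact Derivation.map_one_eq_zero _
    · exact BL.der_pow (c.D_ne h) _
  have h2 : c.D a ε = (c.D a c.u * g) * ε := by
    have h3 := congrArg (c.D a) c.eps
    rw [BL.der_mul_right h1] at h3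
    have h4 := congrArg (c.D a c.u * g * ·) c.eps
    refine h3.trans (Eq.trans ?_ h4.symm)
    rw [mul_assoc, ← mul_assoc g, mul_comm g, hug, one_mul]
  rw [h2]
  exact G1.mul_mem_sub (mul_mem (c.pres _ _ c.u_mem) hg) (Submodule.subset_span rfl)

/-- the centre of a smooth subvariety transversal to the boundary -/
theorem exists_ctr {L : Loc k C G} {ε : GA C G} {I T : Set (GA C G)} {d : ℕ}
    (c : Coord L ε T (Fin d)) (A : Set (Fin d)) (hn : ∀ a ∈ A, c.n a = 0)
    (hA : Submodule.span L.O I = Submodule.span L.O (c.x '' A)) :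
    ∃ J : Ctr C G d, (∀ i, J.t i = false) ∧ (∀ i, J.w i = 0 ∨ J.w i = 1) ∧ Cert L ε I T J ∧
      Comp L ε I J ∧ ∀ i, 0 < J.w i → J.z i ∈ Submodule.span L.O I := by
  classical
  let w0 : Fin d → ℚ := fun i => if i ∈ A then 1 else 0
  let σ := Tuple.sort (ent w0 fun _ => false)
  let J0 : Ctr C G d := ⟨c.x ∘ σ, w0 ∘ σ, fun _ => false⟩
  have hw : ∀ i, 0 < J0.w i → σ i ∈ A ∧ J0.w i = 1 := by
    intro i hi
    by_cases h : σ i ∈ A
    · exact ⟨h, if_pos h⟩
    · exact absurd (show J0.w i = 0 from if_neg h) hi.ne'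
  have hsh : Shape L.O J0 :=
    { mem := fun i => c.x_mem _
      hom := fun i => c.x_isH _
      nonneg := fun i => by
        show 0 ≤ (if σ i ∈ A then (1 : ℚ) else 0)
        split_ifs <;> norm_num
      sorted := Tuple.monotone_sort (ent w0 fun _ => false)
      t_pos := fun i hi => absurd hi Bool.false_ne_true }
  have hxI : ∀ i ∈ A, c.x i ∈ Submodule.span L.O I := fun i hi =>
    hA ▸ Submodule.subset_span ⟨i, hi, rfl⟩
  refine ⟨J0, fun _ => rfl, fun i => ?_, ⟨hsh, fun j hj => ?_⟩, ?_, fun i hi => hxI _ (hw i hi).1⟩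
  · by_cases h : σ i ∈ A
    · exact Or.inr (if_pos h)
    · exact Or.inl (if_neg h)
  · obtain ⟨h1, h2⟩ := hw j hj
    refine ⟨⟨c.x (σ j), [], c.D (σ j), 1, 0⟩, hxI _ h1, c.x_mem _, c.x_isH _,
      fun p hp => absurd hp List.not_mem_nil, by simpa using h2,
      ⟨c.pres _, c.kills _, ⟨_, c.homD _⟩, fun l hl => c.D_ne (σ.injective.ne hl.ne')⟩, ?_, ?_,
      Or.inl ⟨rfl, rfl, D_eps_mem c (hn _ h1)⟩⟩
    · show c.D (σ j) (c.x (σ j)) ∉ L.m
      rw [c.D_self]; exact L.one_notMem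
    · show c.D (σ j) (c.x (σ j)) ∉ L.m
      rw [c.D_self]; exact L.one_notMem
  · refine ⟨hsh, fun i _ => c.x_mem_m _, fun i hi => absurd hi Bool.false_ne_true, fun f hf => ?_⟩
    have h1 : f ∈ Submodule.span L.O (c.x '' A) := hA ▸ Submodule.subset_span hf
    refine (Submodule.span_le.2 ?_) h1
    rintro _ ⟨i, hi, rfl⟩
    obtain ⟨j, rfl⟩ := σ.surjective i
    have h2 := G1.self_mem_filt L.O J0.z J0.w j
    rwa [show J0.w j = 1 from if_pos hi] at h2

end Ctr

section Cone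

variable {k C : Type} [Field k] [Field C] [Algebra k C] {R : Subalgebra k (GA C MM)}
  (h : Good R (AddSubgroup.zmultiples (ee 0))) {q : R →ₐ[k] k} {w : GA C MM}

/-- units of every degree -/
theorem exists_unit (hw : BL.U (locOf h q) (ee 0) w) {μ : MM}
    (hμ : μ ∈ AddSubgroup.zmultiples (ee 0)) :
    ∃ e, BL.U (locOf h q) μ e ∧ ∀ δ : Der k C MM, δ w = 0 → δ e = 0 := by
  obtain ⟨m, rfl⟩ := hμ
  exact BL.exists_zpow hw m

/-- a homogeneous element is a unit times an element of degree zero -/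
theorem dec (hw : BL.U (locOf h q) (ee 0) w) {μ : MM} {f : GA C MM} (hf : f ∈ loc R q)
    (hh : HomD μ f) : ∃ a ∈ O0 R q, ∃ e e', e ∈ loc R q ∧ e' ∈ loc R q ∧ IsHom e' ∧
      (∀ δ : Der k C MM, δ w = 0 → δ e = 0) ∧ f = single 0 a * e ∧ single 0 a = f * e' := by
  by_cases h0 : f = 0
  · exact ⟨0, zero_mem _, 1, 1, one_mem _, one_mem _, isHom_one,
      fun δ _ => Derivation.map_one_eq_zero _, by simp [h0], by simp [h0]⟩
  obtain ⟨e, he, hδ⟩ := exists_unit h hw ((locOf h q).deg μ f hf hh h0)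
  obtain ⟨e', he', h1⟩ := he.inv
  obtain ⟨a, ha⟩ : HomD 0 (f * e') := by simpa using hh.mul he'.hom
  refine ⟨a, ?_, e, e', he.mem, he'.mem, he'.hom.isHom, hδ, ?_, ha.symm⟩
  · rw [mem_O0, ← ha]; exact mul_mem hf he'.mem
  · rw [← ha, mul_assoc, h1, mul_one]

theorem single_mem_m_iff {a : C} (ha : a ∈ O0 R q) :
    (single 0 a : GA C MM) ∈ (locOf h q).m ↔ Van (O0 R q) a :=
  (mem_locOf_m_iff_ev h (f := inc0 R q ⟨a, ha⟩) ⟨0, a, rfl⟩).trans (van_O0_iff ⟨a, ha⟩).symm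

theorem exists_der {w0 : C} (hw0 : w0 ≠ 0) (d : Derivation k C C) :
    ∃ D : Der k C MM, HomDer (-0) D ∧ Kills (fresh C 1) D ∧ D (single (ee 0) w0) = 0 ∧
      ∀ a, D (single 0 a) = single 0 (d a) := by
  obtain ⟨E, hE⟩ := Emb.exists_der_coeff (MM := MM) d
  let D : Der k C MM := E - (single 0 (d w0 / w0) : GA C MM) • BL.eul k (Finsupp.applyAddHom 0)
  have hD : ∀ μ c, D (single μ c) = single μ (d c - (μ 0) • (d w0 / w0 * c)) := by
    intro μ c
    simp only [D, Derivation.sub_apply, Derivation.smul_apply, hE, BL.eul_single, smul_eq_mul,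
      Finsupp.applyAddHom_apply, mul_smul_comm, single_mul_single, zero_add, smul_single,
      single_sub]
  refine ⟨D, ?_, ?_, ?_, fun a => ?_⟩
  · rintro μ _ ⟨c, rfl⟩
    exact ⟨_, by rw [hD, neg_zero, add_zero]⟩
  · rintro _ ⟨μ, hμ, rfl⟩
    rw [chi, hD, hμ 0 one_pos]
    simp
  · rw [hD, G1.ee_apply_self, one_smul, div_mul_cancel₀ _ hw0, sub_self, single_zero]
  · rw [hD]; simp

/-- **graded coordinates from coordinates of the degree zero part** -/
theorem coord_of_coords (hw : BL.U (locOf h q) (ee 0) w) {d : ℕ} {τ : Fin d → C}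
    (hτ : Coords (O0 R q) τ) {ε u : GA C MM} {ν : MM} (hu : BL.U (locOf h q) ν u) (n : Fin d → ℕ)
    (hε : ε = u * ∏ l, (single 0 (τ l) : GA C MM) ^ n l) :
    ∃ c : Coord (locOf h q) ε (fresh C 1) (Fin d), (∀ l, c.x l = single 0 (τ l)) ∧ c.n = n := by
  obtain ⟨w0, rfl⟩ := hw.hom
  have hw0 : w0 ≠ 0 := single_ne_zero.1 hw.ne_zero
  obtain ⟨δ, hδ, hδτ⟩ := hτ.der
  choose D hD1 hD2 hD3 hD4 using fun l => exists_der (k := k) hw0 (δ l)
  refine ⟨{
    x := fun l => single 0 (τ l)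
    ξ := fun _ => 0
    D := D
    n := n
    u := u
    hom := fun l => ⟨_, rfl⟩
    span_eq := ?_
    homD := hD1
    pres := fun l f hf => ?_
    kills := hD2
    dual := fun i j => ?_
    U := fun μ hμ => ?_
    u_mem := hu.mem
    u_hom := ⟨_, hu.hom⟩
    u_notMem := hu.nm
    eps := hε }, fun _ => rfl, rfl⟩
  · refine le_antisymm (fun f hf => BL.mem_of_cp fun μ => ?_) (Submodule.span_le.2 ?_)
    · have hfm : cp μ f ∈ (locOf h q).m := (locOf h q).pr_m μ f hf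
      obtain ⟨a, ha, e, e', he, he', -, -, h1, h2⟩ :=
        dec h hw ((locOf h q).m_le _ hfm) (homD_cp μ f)
      obtain ⟨r, hr, h3⟩ := hτ.gen a ((single_mem_m_iff h ha).1 (h2 ▸ BL.mul_mem_sub' he' hfm))
      rw [h1]
      refine BL.mul_mem_sub' he ?_
      have h4 : (single 0 a : GA C MM) = ∑ l, single 0 (r l) * single 0 (τ l) := by
        rw [h3, ← cst_apply (k := k), map_sum]
        exact Finset.sum_congr rfl fun l _ => map_mul _ _ _
      rw [h4]
      exact sum_mem fun l _ => BL.mul_mem_sub (hr l) (Submodule.subset_span ⟨l, rfl⟩)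
    · rintro _ ⟨l, rfl⟩
      exact (single_mem_m_iff h (hτ.mem l)).2 (hτ.van l)
  · rw [← sum_cp f, map_sum]
    refine sum_mem fun μ _ => ?_
    obtain ⟨a, ha, e, e', he, -, -, h0, h1, -⟩ :=
      dec h hw ((locOf h q).pr_O μ f hf) (homD_cp μ f)
    rw [pr_eq] at h1
    rw [h1, BL.der_mul_right (h0 _ (hD3 l)), hD4]
    exact mul_mem (hδ l a ha) he
  · rw [hD4, hδτ]
    split_ifs
    · rfl
    · exact single_zero _
  · obtain ⟨e, he, h1⟩ := exists_unit h hw hμ
    exact ⟨1, one_pos, e, he.mem, he.nm, by rw [one_smul]; exact he.hom, fun l => h1 _ (hD3 l)⟩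

/-- coordinates of the degree zero part from graded coordinates -/
theorem coords_of_coord (hw : BL.U (locOf h q) (ee 0) w) {d : ℕ} {ε : R} {T : Set (GA C MM)}
    (c : Coord (locOf h q) ε T (Fin d)) : ∃ τ : Fin d → C, Coords (O0 R q) τ := by
  obtain ⟨p⟩ := finPt_of_coord h q ε c fun μ hμ => by
    obtain ⟨e, he, -⟩ := exists_unit h hw hμ
    exact ⟨⟨e, he.mem⟩, he.hom, fun h0 =>
      he.nm ((mem_locOf_m_iff_ev h (f := ⟨e, he.mem⟩) ⟨μ, he.hom⟩).2 h0)⟩
  exact ⟨_, coords_O0 h.gr p.x p.w p.μ p.hx p.hw p.hw0 p.span p.d p.hd p.dual⟩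

end Cone

end Crest.Agent.X262.Res.StB
end
end

-- ▼ part X262/Res/StartC
section

/-!
# Row 262, squad RES+ (helper39): the cone over projective space near a point of the variety
-/

set_option autoImplicit false

noncomputable section

namespace Crest.Agent.X262.Res.StC

open AddMonoidAlgebra Crest.Agent.X277.Res Crest.Agent.X277.Res.Gr Crest.Agent.X277.Res.Out
  Crest.Agent.X277.Res.Emb Crest.Agent.X277.Res.St Crest.Agent.X277.Lef

variable {k C F : Type} [Field k] [Field C] [Algebra k C] [Field F] [Algebra k F] {N : ℕ}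

/-- the reduction of projective space onto the model `y` -/
structure Dat {S : Subalgebra k C} (π : S →ₐ[k] F) (Y : Fin (N + 1) → C)
    (y : Fin (N + 1) → F) : Prop where
  le : Algebra.adjoin k (Set.range Y) ≤ S
  inv : ∀ c : S, π c ≠ 0 → (c : C)⁻¹ ∈ S
  hY : ∀ j, pf π (Y j) = y j / y 0
  y_ne : ∀ j, y j ≠ 0

/-- the coordinates as elements of the ring -/
abbrev yy (k : Type) [Field k] [Algebra k C] (Y : Fin (N + 1) → C) (j : Fin (N + 1)) :
    (pre k Y).R := ⟨YY Y j, YY_mem Y j⟩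

variable {S : Subalgebra k C} {π : S →ₐ[k] F} {Y : Fin (N + 1) → C} {y : Fin (N + 1) → F}

theorem Dat.R_le (D : Dat π Y y) : (pre k Y).R ≤ SA MM S :=
  fun _ hf => mem_SA.2 fun μ => D.le ((pre k Y).coeff_mem hf μ).1

theorem Dat.coef (D : Dat π Y y) {μ : MM} {c : C} (h : (single μ c : GA C MM) ∈ (pre k Y).R) :
    c ∈ S := single_mem_SA.1 (D.R_le h)

theorem R_ind {p : (pre k Y).R → Prop} (h1 : ∀ j, p (yy k Y j))
    (h2 : ∀ c, p (algebraMap k _ c)) (h3 : ∀ a b, p a → p b → p (a + b))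
    (h4 : ∀ a b, p a → p b → p (a * b)) (f : (pre k Y).R) : p f := by
  obtain ⟨f, hf⟩ := f
  induction hf using Algebra.adjoin_induction with
  | mem a ha =>
    have ha' := ha
    rw [coe_gens] at ha'
    obtain ⟨j, rfl⟩ := ha'
    exact h1 j
  | algebraMap c => exact h2 c
  | add a b ha hb iha ihb => exact h3 ⟨a, ha⟩ ⟨b, hb⟩ iha ihb
  | mul a b ha hb iha ihb => exact h4 ⟨a, ha⟩ ⟨b, hb⟩ iha ihb

theorem u_YY {q : (pre k Y).R →ₐ[k] k} {j : Fin (N + 1)} (h : q (yy k Y j) ≠ 0) :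
    BL.U (locOf (pre k Y).good q) (ee 0) (YY Y j) :=
  ⟨homD_YY Y j, le_loc q (YY_mem Y j), fun hm =>
    h ((mem_locOf_m_iff (pre k Y).good (f := yy k Y j) ⟨_, homD_YY Y j⟩).1 hm)⟩

theorem div_mem {q : (pre k Y).R →ₐ[k] k} {i : Fin (N + 1)} (h : q (yy k Y i) ≠ 0)
    (j : Fin (N + 1)) : Y j / Y i ∈ O0 (pre k Y).R q ∧
      YY Y j = (single 0 (Y j / Y i) : GA C MM) * YY Y i := by
  have h0 : Y i ≠ 0 := single_ne_zero.1 (u_YY h).ne_zero
  have h1 : YY Y j = (single 0 (Y j / Y i) : GA C MM) * YY Y i := by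
    rw [YY, YY, single_mul_single, zero_add, div_mul_cancel₀ _ h0]
  refine ⟨⟨yy k Y i, ⟨_, homD_YY Y i⟩, h, ?_⟩, h1⟩
  change YY Y i * single 0 (Y j / Y i) ∈ _
  rw [mul_comm, ← h1]
  exact YY_mem Y j

section Pt

variable (D : Dat π Y y) {q : (pre k Y).R →ₐ[k] k} {i : Fin (N + 1)}
  {ψ : chart k y i →ₐ[k] k} (hv : q (yy k Y i) ≠ 0)
  (hψ : ∀ j, ψ ⟨_, div_mem_chart y i j⟩ = q (yy k Y j) / q (yy k Y i))
include D hv hψ

theorem exists_Phi : ∃ (Φ : (pre k Y).R →ₐ[k] chart k y i) (z : F), z ≠ 0 ∧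
    (∀ (μ : MM) (c : C) (h : (single μ c : GA C MM) ∈ (pre k Y).R),
      (Φ ⟨_, h⟩ : F) = pf π c * z ^ (μ 0)) ∧ ∀ f, ψ (Φ f) = q f := by
  set z : F := algebraMap k F (q (yy k Y i)) * (y 0 / y i) with hz
  have hz0 : z ≠ 0 := mul_ne_zero ((map_ne_zero _).2 hv) (div_ne_zero (D.y_ne 0) (D.y_ne i))
  let χ : Multiplicative MM →* F :=
    { toFun := fun μ => z ^ (μ.toAdd 0)
      map_one' := by simp
      map_mul' := fun a b => by rw [toAdd_mul, Finsupp.add_apply, zpow_add₀ hz0] }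
  obtain ⟨Φ0, h1⟩ : ∃ Φ0 : (pre k Y).R →ₐ[k] F,
      ∀ (μ : MM) (c : C) (h : (single μ c : GA C MM) ∈ (pre k Y).R),
        Φ0 ⟨_, h⟩ = pf π c * z ^ (μ 0) := by
    refine ⟨(((AddMonoidAlgebra.lift F F MM χ).restrictScalars k).comp (PiH π)).comp
      (Subalgebra.inclusion D.R_le), fun μ c h => ?_⟩
    change AddMonoidAlgebra.lift F F MM χ (Pf π (single μ c)) = _
    rw [Pf_single, lift_single, smul_eq_mul]
    rfl
  have h2 : ∀ j, Φ0 (yy k Y j) = algebraMap k F (q (yy k Y i)) * (y j / y i) := by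
    intro j
    have h0 := D.y_ne 0
    have hi := D.y_ne i
    refine (h1 _ _ (YY_mem Y j)).trans ?_
    rw [D.hY, G1.ee_apply_self, zpow_one, hz]
    field_simp
  have h3 : ∀ f : (pre k Y).R, Φ0 f ∈ chart k y i := fun f =>
    R_ind (p := fun f => Φ0 f ∈ chart k y i)
      (fun j => by rw [h2]; exact mul_mem (Subalgebra.algebraMap_mem _ _) (div_mem_chart y i j))
      (fun c => by rw [AlgHom.commutes]; exact Subalgebra.algebraMap_mem _ c)
      (fun a b ha hb => by rw [map_add]; exact add_mem ha hb)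
      (fun a b ha hb => by rw [map_mul]; exact mul_mem ha hb) f
  refine ⟨Φ0.codRestrict _ h3, z, hz0, h1, R_ind (fun j => ?_) (fun c => ?_)
    (fun a b ha hb => ?_) fun a b ha hb => ?_⟩
  · rw [show Φ0.codRestrict _ h3 (yy k Y j) = algebraMap k _ (q (yy k Y i)) *
      ⟨_, div_mem_chart y i j⟩ from Subtype.ext (h2 j), map_mul, hψ, AlgHom.commutes]
    exact mul_div_cancel₀ _ hv
  · rw [AlgHom.commutes, AlgHom.commutes, AlgHom.commutes]
  · rw [map_add, map_add, map_add, ha, hb]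
  · rw [map_mul, map_mul, map_mul, ha, hb]

/-- the point lies on the variety -/
theorem not_nz {f : GA C MM} (hf : InP π f) : ¬ NZ q f := by
  obtain ⟨Φ, z, -, h1, h2⟩ := exists_Phi D hv hψ
  obtain ⟨μ, c, rfl, hc⟩ := hf
  rintro ⟨h, hq⟩
  refine hq ?_
  rw [← h2, show Φ ⟨_, h⟩ = 0 from Subtype.ext (by rw [h1, pf_coe, hc, zero_mul]; rfl), map_zero]

theorem pf_ne {μ : MM} {c : C} (h : (single μ c : GA C MM) ∈ (pre k Y).R) (hq : q ⟨_, h⟩ ≠ 0) :
    pf π c ≠ 0 := fun h0 =>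
  not_nz D hv hψ ⟨μ, ⟨c, D.coef h⟩, rfl, (pf_of_mem π _).symm.trans h0⟩ ⟨h, hq⟩

theorem O0_le : O0 (pre k Y).R q ≤ S := by
  rintro x ⟨⟨_, hb⟩, ⟨β, c, rfl⟩, hq, hbx⟩
  change (single β c : GA C MM) * single 0 x ∈ _ at hbx
  rw [single_mul_single] at hbx
  have h1 := pf_ne D hv hψ hb hq
  have h2 : c ≠ 0 := fun h => h1 (by rw [h, pf_zero])
  have h3 := mul_mem (D.inv ⟨c, D.coef hb⟩ (by rwa [← pf_of_mem])) (D.coef hbx)
  rwa [← mul_assoc, inv_mul_cancel₀ h2, one_mul] at h3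

theorem pf_mem {x : C} (hx : x ∈ O0 (pre k Y).R q) : pf π x ∈ lo (chart k y i) ψ ∧
    (ev0 _ q ⟨x, hx⟩ = 0 ↔ Van (lo (chart k y i) ψ) (pf π x)) := by
  obtain ⟨Φ, z, -, h1, h2⟩ := exists_Phi D hv hψ
  have hxS := O0_le D hv hψ hx
  obtain ⟨⟨_, hb⟩, ⟨β, c, rfl⟩, hq, hbx⟩ := id hx
  have hbx' : (single β (c * x) : GA C MM) ∈ (pre k Y).R := by
    change (single β c : GA C MM) * single 0 x ∈ _ at hbx
    rwa [single_mul_single, add_zero] at hbx
  have h3 : (Φ ⟨_, hb⟩ : F) * pf π x = Φ ⟨_, hbx'⟩ := by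
    rw [h1, h1, pf_mul π (D.coef hb) hxS, mul_right_comm]
  have h4 : ψ (Φ ⟨_, hb⟩) ≠ 0 := by rwa [h2]
  have h5 : pf π x ∈ lo (chart k y i) ψ := ⟨_, h4, h3 ▸ (Φ ⟨_, hbx'⟩).2⟩
  have h6 : q ⟨_, hbx'⟩ = q ⟨_, hb⟩ * ev0 _ q ⟨x, hx⟩ := by
    rw [ev0_apply, ← ev_spec (inc0 _ q ⟨x, hx⟩) (b := ⟨_, hb⟩) hbx]
    congr 1
    apply Subtype.ext
    change _ = (single β c : GA C MM) * single 0 x
    rw [single_mul_single, add_zero]
  refine ⟨h5, fun h => ⟨h5, fun hu => ?_⟩, fun h => ?_⟩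
  · have h7 := (un_lo h4).mul hu
    rw [h3, un_lo_iff, h2, h6, h, mul_zero] at h7
    exact h7 rfl
  · have h7 := Van.mul_left (le_lo ψ (Φ ⟨_, hb⟩).2) h
    rw [h3, van_lo_iff, h2, h6] at h7
    exact (mul_eq_zero.1 h7).resolve_left hq

theorem pf_div (j : Fin (N + 1)) : pf π (Y j / Y i) = y j / y i := by
  have h0 : Y i ≠ 0 := single_ne_zero.1 (u_YY hv).ne_zero
  have h1 := pf_mul π (O0_le D hv hψ (div_mem hv j).1) (D.le (Algebra.subset_adjoin ⟨i, rfl⟩))
  rw [div_mul_cancel₀ _ h0, D.hY, D.hY] at h1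
  have h2 := D.y_ne 0
  have h3 := D.y_ne i
  field_simp at h1 ⊢
  exact h1.symm

/-- the local surjection onto the local ring of the variety -/
theorem exists_rho : ∃ ρ : O0 (pre k Y).R q →ₐ[k] lo (chart k y i) ψ,
    (∀ x, (ρ x : F) = pf π x) ∧ Function.Surjective ρ ∧
      ∀ x, ev0 _ q x = 0 ↔ Van (lo (chart k y i) ψ) (ρ x) := by
  let ρ0 : O0 (pre k Y).R q →ₐ[k] F := π.comp (Subalgebra.inclusion (O0_le D hv hψ))
  have h0 : ∀ x, ρ0 x = pf π x := fun x => (pf_of_mem π _).symm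
  let ρ : O0 (pre k Y).R q →ₐ[k] lo (chart k y i) ψ :=
    ρ0.codRestrict _ fun x => h0 x ▸ (pf_mem D hv hψ x.2).1
  have hloc : ∀ x, ev0 _ q x = 0 ↔ Van (lo (chart k y i) ψ) (ρ x) := fun x => by
    change _ ↔ Van _ (ρ0 x)
    rw [h0]; exact (pf_mem D hv hψ x.2).2
  have hch : chart k y i ≤ ρ0.range := chart_le fun j =>
    ⟨⟨_, (div_mem hv j).1⟩, (h0 _).trans (pf_div D hv hψ j)⟩
  refine ⟨ρ, h0, ?_, hloc⟩
  rintro ⟨g, a, ha, hag⟩
  obtain ⟨a', ha'⟩ := hch a.2
  obtain ⟨b', hb'⟩ := hch hag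
  have h1 : Un (O0 (pre k Y).R q) a' := (un_O0_iff a').2 fun h => by
    have h2 := (hloc a').1 h
    change Van _ (ρ0 a') at h2
    rw [show ρ0 a' = a from ha'] at h2
    exact h2.2 (un_lo ha)
  refine ⟨⟨_, h1.2.2⟩ * b', Subtype.ext ?_⟩
  change ρ0 (⟨_, h1.2.2⟩ * b') = g
  have h2 : ρ0 a' * ρ0 ⟨_, h1.2.2⟩ = 1 := by
    rw [← map_mul, show a' * ⟨_, h1.2.2⟩ = 1 from Subtype.ext (mul_inv_cancel₀ h1.1), map_one]
  rw [map_mul, show ρ0 b' = a * g from hb', ← show ρ0 a' = a from ha', ← mul_assoc,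
    mul_comm _ (ρ0 a'), h2, one_mul]

end Pt

/-- the degree zero part is the local ring of a chart of projective space -/
theorem O0_eq (h0 : Y 0 = 1) (hY : ∀ j, Y j ≠ 0) {q : (pre k Y).R →ₐ[k] k} {i : Fin (N + 1)}
    (hv : q (yy k Y i) ≠ 0) : ∃ ψ, O0 (pre k Y).R q = lo (chart k Y i) ψ := by
  have D : Dat (⊤ : Subalgebra k C).val Y Y :=
    ⟨le_top, fun _ _ => trivial, fun j => by
      rw [h0, div_one]; exact pf_of_mem (⊤ : Subalgebra k C).val Algebra.mem_top, hY⟩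
  have hle : chart k Y i ≤ O0 (pre k Y).R q := chart_le fun j => (div_mem hv j).1
  have hψ : ∀ j, ((ev0 _ q).comp (Subalgebra.inclusion hle)) ⟨_, div_mem_chart Y i j⟩ =
      q (yy k Y j) / q (yy k Y i) := by
    intro j
    have h1 : ((yy k Y i : (pre k Y).R) : GA C MM) * inc0 _ q ⟨_, (div_mem hv j).1⟩ = YY Y j := by
      rw [mul_comm]; exact (div_mem hv j).2.symm
    have h3 : ((yy k Y i : (pre k Y).R) : GA C MM) * inc0 _ q ⟨_, (div_mem hv j).1⟩ ∈
        (pre k Y).R := by rw [h1]; exact YY_mem Y j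
    have h2 := ev_spec (inc0 _ q ⟨_, (div_mem hv j).1⟩) (b := yy k Y i) h3
    rw [show (⟨_, h3⟩ : (pre k Y).R) = yy k Y j from Subtype.ext h1] at h2
    rw [h2, mul_div_cancel_left₀ _ hv]
    rfl
  obtain ⟨ρ, h1, h2, -⟩ := exists_rho D hv hψ
  have h3 : ∀ x, (ρ x : C) = x := fun x => 
    (h1 x).trans (pf_of_mem (⊤ : Subalgebra k C).val Algebra.mem_top)
  refine ⟨(ev0 _ q).comp (Subalgebra.inclusion hle),
    le_antisymm (fun x hx => ?_) fun x hx => ?_⟩
  · have := (ρ ⟨x, hx⟩).2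
    rwa [h3] at this
  · obtain ⟨a, ha⟩ := h2 ⟨x, hx⟩
    have h4 := h3 a
    rw [ha] at h4
    change x = a at h4
    rw [h4]
    exact a.2

end Crest.Agent.X262.Res.StC
end
end

-- ▼ part X262/Res/StartD
section

/-!
# Row 262, squad RES+ (helper39): good points of the first model; weights
-/

set_option autoImplicit false

noncomputable section

namespace Crest.Agent.X262.Res.StC

open AddMonoidAlgebra Crest.Agent.X277.Res Crest.Agent.X277.Res.Gr Crest.Agent.X277.Res.Out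
  Crest.Agent.X277.Res.Emb Crest.Agent.X277.Res.St Crest.Agent.X277.Lef

variable {k C F : Type} [Field k] [Field C] [Algebra k C] [Field F] [Algebra k F] {N : ℕ}

open Classical in
/-- the boundary of the first model -/
def eps (Y : Fin (N + 1) → C) (B : Set (Fin (N + 1))) : GA C MM :=
  ∏ j ∈ Finset.univ.filter (· ∈ B), YY Y j

variable {S : Subalgebra k C} {π : S →ₐ[k] F} {Y : Fin (N + 1) → C} {y : Fin (N + 1) → F}
  {B : Set (Fin (N + 1))}

theorem eps_mem : eps Y B ∈ (pre k Y).R := prod_mem fun j _ => YY_mem Y j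

theorem eps_isH : IsH (eps Y B) := IsHom.prod _ fun j _ => ⟨_, homD_YY Y j⟩

theorem coord_eps [CharZero k] {L : Loc k C MM} {T : Set (GA C MM)} (hL : (pre k Y).R ≤ L.O)
    (c : Coord L (∏ j, YY Y j) T (Fin N)) : Nonempty (Coord L (eps Y B) T (Fin N)) := by
  classical
  obtain ⟨u, h1, h2, h3, n, h4⟩ := monoStmt L _ T _ c (eps Y B) eps_isH (hL eps_mem) (by
    rw [← Finset.prod_filter_mul_prod_filter_not Finset.univ (· ∈ B), mul_comm]
    exact BL.mul_mem_sub (hL (prod_mem fun j _ => YY_mem Y j)) (Submodule.subset_span (by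
      rw [Set.mem_singleton_iff, eps])))
  exact ⟨{ c with n := n, u := u, u_mem := h1, u_hom := h3, u_notMem := h2, eps := h4 }⟩

/-- at a good point the ideal of the variety is generated by free coordinates -/
theorem exists_good [CharZero k] (D : Dat π Y y) (h0 : Y 0 = 1) (hY : ∀ j, Y j ≠ 0)
    {q : (pre k Y).R →ₐ[k] k} {i : Fin (N + 1)} {ψ : chart k y i →ₐ[k] k}
    (hv : q (yy k Y i) ≠ 0)
    (hψ : ∀ j, ψ ⟨_, div_mem_chart y i j⟩ = q (yy k Y j) / q (yy k Y i))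
    (hs : Snc y B i (lo (chart k y i) ψ)) {ε₀ : (pre k Y).R} {T : Set (GA C MM)}
    (c₀ : Coord ((pre k Y).loc q) ε₀ T (Fin N)) {I : Set (GA C MM)}
    (hI : ∀ f ∈ I, f ∈ (pre k Y).R ∧ InP π f)
    (hgen : ∀ f ∈ (pre k Y).R, InP π f → f ∈ Submodule.span (pre k Y).R I) :
    ∃ (c : Coord ((pre k Y).loc q) (eps Y B) (fresh C 1) (Fin N)) (A : Set (Fin N)),
      (∀ a ∈ A, c.n a = 0) ∧
      Submodule.span ((pre k Y).loc q).O I = Submodule.span ((pre k Y).loc q).O (c.x '' A) := by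
  classical
  have hg := (pre k Y).good
  have hw := u_YY hv
  obtain ⟨n, t, σ, ht, hinj, hun⟩ := hs
  obtain ⟨τ₀, hτ₀⟩ := StB.coords_of_coord hg hw c₀
  obtain ⟨ρ, hρ1, hρ2, hρ3⟩ := exists_rho D hv hψ
  obtain ⟨ψ₀, hψ₀⟩ := O0_eq h0 hY hv
  have := finiteType_chart (k := k) Y i
  have : IsLocalRing (O0 (pre k Y).R q) := by rw [hψ₀]; infer_instance
  have : IsNoetherianRing (O0 (pre k Y).R q) := by rw [hψ₀]; exact isNoetherianRing_lo _ _
  let β := {j : Fin (N + 1) // j ∈ B ∧ (σ j).isSome}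
  let b : β → O0 (pre k Y).R q := fun j => ⟨_, (div_mem hv j.1).1⟩
  let σ' : β → Fin n := fun j => (σ j.1).get j.2.2
  have hσ' : ∀ j : β, σ j.1 = some (σ' j) := fun j => (Option.some_get _).symm
  obtain ⟨τ, hτ, A, e, he, heA, hτe, hker⟩ := StA.exists_adapted (b := b) (σ := σ')
    (fun x => (van_O0_iff x).symm) hρ2 hρ3 hτ₀ ht
    (fun j j' h => Subtype.ext (hinj _ j.2.1 _ j'.2.1 _ (hσ' j) (h ▸ hσ' j')))
    (fun j => by
      have := hun j.1 j.2.1
      rwa [hσ' j, Option.elim_some, ← pf_div D hv hψ, ← hρ1 (b j)] at this)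
  obtain ⟨ν, hu⟩ := BL.u_prod (L := locOf hg q) (Finset.univ.filter (· ∈ B))
    (a := fun j => if (σ j).isSome then YY Y i else YY Y j) fun j hj => ⟨ee 0, by
      split_ifs with h
      · exact hw
      · refine u_YY fun h1 => ?_
        have h2 := hun j (Finset.mem_filter.1 hj).2
        rw [Option.not_isSome_iff_eq_none.1 h, Option.elim_none, div_one] at h2
        refine (un_lo_iff ⟨_, div_mem_chart y i j⟩).1 h2 ?_
        rw [hψ, h1, zero_div]⟩
  obtain ⟨c, hc1, hc2⟩ := StB.coord_of_coords hg hw hτ (ε := eps Y B) hu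
    (fun l => if l ∈ Finset.univ.image e then 1 else 0) (by
      have h1 : ∏ l, (single 0 (τ l) : GA C MM) ^ (if l ∈ Finset.univ.image e then 1 else 0) =
          ∏ j ∈ Finset.univ.filter (· ∈ B),
            if (σ j).isSome then (single 0 (Y j / Y i) : GA C MM) else 1 := by
        simp only [pow_ite, pow_one, pow_zero]
        rw [Finset.prod_ite_mem, Finset.univ_inter, Finset.prod_image he.injOn,
          ← Finset.prod_filter, Finset.filter_filter,
          Finset.prod_subtype (p := fun j => j ∈ B ∧ (σ j).isSome) _ (by simp)]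
        exact Finset.prod_congr rfl fun j _ => by rw [hτe]
      rw [h1, ← Finset.prod_mul_distrib, eps]
      refine Finset.prod_congr rfl fun j _ => ?_
      split_ifs
      · rw [mul_comm]; exact (div_mem hv j).2
      · rw [mul_one])
  refine ⟨c, A, fun a ha => ?_, le_antisymm (Submodule.span_le.2 fun f hf => ?_)
    (Submodule.span_le.2 ?_)⟩
  · rw [hc2]
    refine if_neg fun h => ?_
    obtain ⟨j, -, rfl⟩ := Finset.mem_image.1 h
    exact heA j ha
  · obtain ⟨hfR, μ, cf, rfl, hcf⟩ := hI f hf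
    obtain ⟨a, ha, e₁, e₂, he₁, he₂, ⟨η, c₂, rfl⟩, -, h1, h2⟩ :=
      StB.dec hg hw (le_loc q hfR) ⟨_, rfl⟩
    have h3 : ρ ⟨a, ha⟩ = 0 := by
      obtain ⟨⟨_, hb⟩, ⟨γ, cb, rfl⟩, hq, hbe⟩ := he₂
      change (single γ cb : GA C MM) * single η c₂ ∈ _ at hbe
      rw [single_mul_single] at hbe
      have h4 : a = cf * c₂ := by
        have h5 := congrArg (fun z : GA C MM => z.coeff 0) h2
        have h6 := congrArg (fun z : GA C MM => z.coeff (μ + η)) h2
        simp only [single_mul_single, coeff_single, Finsupp.single_eq_same] at h5 h6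
        by_cases h7 : μ + η = 0
        · rwa [h7, Finsupp.single_eq_same] at h5
        · rw [Finsupp.single_eq_of_ne (Ne.symm h7)] at h5
          rw [Finsupp.single_eq_of_ne h7] at h6
          rw [h5, ← h6]
      have h5 := pf_mul π (D.coef hb) (O0_le D hv hψ ha)
      rw [h4, mul_left_comm, pf_mul π cf.2 (D.coef hbe), pf_coe, hcf, zero_mul, ← h4] at h5
      apply Subtype.ext
      rw [hρ1]
      exact (mul_eq_zero.1 h5.symm).resolve_left (pf_ne D hv hψ hb hq)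
    have h4 : (⟨a, ha⟩ : O0 (pre k Y).R q) ∈ Ideal.span (hτ.el '' A) := hker ▸ h3
    have h5 : ∀ x ∈ Ideal.span (hτ.el '' A), (single 0 (x : C) : GA C MM) ∈
        Submodule.span ((pre k Y).loc q).O (c.x '' A) := by
      intro x hx
      induction hx using Submodule.span_induction with
      | mem x hx =>
        obtain ⟨l, hl, rfl⟩ := hx
        exact Submodule.subset_span ⟨l, hl, hc1 l⟩
      | zero => rw [ZeroMemClass.coe_zero, single_zero]; exact zero_mem _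
      | add x x' _ _ h h' => rw [AddMemClass.coe_add, single_add]; exact add_mem h h'
      | smul r x _ h =>
        rw [smul_eq_mul, MulMemClass.coe_mul, ← cst_apply (k := k), map_mul]
        exact BL.mul_mem_sub r.2 h
    change _ ∈ Submodule.span _ _
    rw [h1]
    exact BL.mul_mem_sub' he₁ (h5 _ h4)
  · rintro _ ⟨a, ha, rfl⟩
    have h1 : ρ (hτ.el a) = 0 := by
      rw [← RingHom.mem_ker, hker]
      exact Ideal.subset_span ⟨a, ha, rfl⟩
    obtain ⟨⟨_, hb⟩, ⟨γ, cb, rfl⟩, hq, hbx⟩ := hτ.mem a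
    change (single γ cb : GA C MM) * single 0 (τ a) ∈ _ at hbx
    have h2 : InP π ((single γ cb : GA C MM) * single 0 (τ a)) := by
      rw [single_mul_single] at hbx ⊢
      refine ⟨_, ⟨_, D.coef hbx⟩, rfl, ?_⟩
      rw [← pf_of_mem π, pf_mul π (D.coef hb) (O0_le D hv hψ (hτ.mem a)),
        ← show (ρ (hτ.el a) : F) = pf π (τ a) from hρ1 _, h1]
      simp
    have h3 : BL.U (locOf hg q) γ (single γ cb) := ⟨⟨_, rfl⟩, le_loc q hb, fun hm =>
      hq ((mem_locOf_m_iff hg (f := ⟨_, hb⟩) ⟨_, _, rfl⟩).1 hm)⟩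
    change _ ∈ Submodule.span _ _
    rw [hc1]
    exact h3.cancel (span_mono_alg (le_loc q) (fun g hg => Submodule.subset_span hg)
      (hgen _ hbx h2))

/-! ### weights -/

section Weights

variable {s : kˣ →* (C ≃ₐ[k] C)} {s' : kˣ →* (F ≃ₐ[k] F)}

theorem eqRed_of (hr : Red S π Y) (hw : ∀ j, ∃ n, Wt s n (Y j) ∧ Wt s' n (pf π (Y j))) :
    EqRed s s' π := by
  have key : ∀ a : kˣ, ∀ c ∈ Algebra.adjoin k (Set.range Y),
      s a c ∈ Algebra.adjoin k (Set.range Y) ∧ pf π (s a c) = s' a (pf π c) := by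
    intro a c hc
    induction hc using Algebra.adjoin_induction with
    | mem c hc =>
      obtain ⟨j, rfl⟩ := hc
      obtain ⟨n, h1, h2⟩ := hw j
      have h3 : Y j ∈ Algebra.adjoin k (Set.range Y) := Algebra.subset_adjoin ⟨j, rfl⟩
      rw [h1, h2, Algebra.smul_def, Algebra.smul_def,
        pf_mul π (S.algebraMap_mem _) (hr.le h3), pf_algebraMap]
      exact ⟨mul_mem (Subalgebra.algebraMap_mem _ _) h3, rfl⟩
    | algebraMap c =>
      rw [AlgEquiv.commutes, pf_algebraMap, AlgEquiv.commutes]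
      exact ⟨Subalgebra.algebraMap_mem _ _, rfl⟩
    | add b c hb hc ihb ihc =>
      rw [map_add, pf_add π (hr.le ihb.1) (hr.le ihc.1), pf_add π (hr.le hb) (hr.le hc), map_add,
        ihb.2, ihc.2]
      exact ⟨add_mem ihb.1 ihc.1, rfl⟩
    | mul b c hb hc ihb ihc =>
      rw [map_mul, pf_mul π (hr.le ihb.1) (hr.le ihc.1), pf_mul π (hr.le hb) (hr.le hc), map_mul,
        ihb.2, ihc.2]
      exact ⟨mul_mem ihb.1 ihc.1, rfl⟩
  intro a c
  obtain ⟨b, hb, hb0, hbc⟩ := hr.frac c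
  obtain ⟨h1, h2⟩ := key a _ hb
  obtain ⟨h3, h4⟩ := key a _ hbc
  rw [pf_coe] at h2
  have h5 : pf π (s a b) ≠ 0 := by rw [h2]; exact (map_ne_zero _).2 hb0
  have h6 : s a b ≠ 0 := fun h => h5 (by rw [h, pf_zero])
  have h7 : s a c ∈ S := by
    have := mul_mem (hr.inv ⟨_, hr.le h1⟩ (by rwa [← pf_of_mem])) (hr.le h3)
    rwa [map_mul, ← mul_assoc, inv_mul_cancel₀ h6, one_mul] at this
  refine ⟨h7, mul_left_cancel₀ h5 ?_⟩
  rw [← pf_of_mem π h7, ← pf_mul π (hr.le h1) h7, ← map_mul, h4, h2, ← map_mul,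
    pf_mul π b.2 c.2, pf_coe, pf_coe]

theorem wt_pf (h : EqRed s s' π) {n : ℤ} {c : C} (hc : c ∈ S) (hw : Wt s n c) :
    Wt s' n (pf π c) := by
  intro a
  obtain ⟨h1, h2⟩ := h a ⟨c, hc⟩
  rw [pf_of_mem π hc, ← h2, ← map_smul]
  exact congrArg π (Subtype.ext (hw a))

/-- weight vectors of different weights are independent -/
theorem wt_indep [CharZero k] (t : Finset ℤ) (v : ℤ → F) (hv : ∀ n ∈ t, Wt s' n (v n))
    (h : ∑ n ∈ t, v n = 0) : ∀ n ∈ t, v n = 0 := by
  let a : kˣ := Units.mk0 2 two_ne_zero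
  have hinj : Function.Injective fun n : ℤ => ((a ^ n : kˣ) : k) := by
    intro m n hmn
    have h1 : ((2 : ℚ) : k) ^ m = ((2 : ℚ) : k) ^ n := by
      simpa [a, Units.val_zpow_eq_zpow_val] using hmn
    have h2 : (2 : ℚ) ^ m = 2 ^ n := by exact_mod_cast h1
    exact zpow_right_injective₀ (by norm_num) (by norm_num) h2
  refine (iSupIndep_iff_finsetSum_eq_zero_imp_eq_zero _).1
    ((Module.End.eigenspaces_iSupIndep (s' a).toLinearMap).comp hinj) t v (fun n hn => ?_) h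
  exact Module.End.mem_eigenspace_iff.2 (hv n hn a)

/-- elements of a subalgebra all of whose coefficients have weight `n` -/
def WS (s : kˣ →* (C ≃ₐ[k] C)) (R : Subalgebra k (GA C MM)) (n : ℤ) : Submodule k (GA C MM) where
  carrier := {g | g ∈ R ∧ ∀ μ, Wt s n (g.coeff μ)}
  add_mem' := fun {f g} hf hg => ⟨add_mem hf.1 hg.1, fun μ a => by
    rw [coeff_add, Finsupp.add_apply, map_add, hf.2, hg.2, smul_add]⟩
  zero_mem' := ⟨zero_mem _, fun _ => wt_zero n⟩
  smul_mem' := fun c f hf => ⟨R.smul_mem hf.1 c, fun μ a => by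
    rw [coeff_smul, Finsupp.smul_apply, map_smul, hf.2, smul_comm]⟩

theorem single_mem_WS {R : Subalgebra k (GA C MM)} {n : ℤ} {μ : MM} {c : C}
    (h : (single μ c : GA C MM) ∈ R) (hc : Wt s n c) : single μ c ∈ WS s R n := by
  classical
  refine ⟨h, fun ν => ?_⟩
  rw [coeff_single, Finsupp.single_apply]
  split_ifs
  · exact hc
  · exact wt_zero n

theorem mul_mem_WS {R : Subalgebra k (GA C MM)} {m n : ℤ} {f g : GA C MM} (hf : f ∈ WS s R m)
    (hg : g ∈ WS s R n) : f * g ∈ WS s R (m + n) := by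
  refine ⟨mul_mem hf.1 hg.1, fun μ a => ?_⟩
  rw [coeff_mul_apply_left, Finsupp.sum, map_sum, Finset.smul_sum]
  exact Finset.sum_congr rfl fun ν _ => (hf.2 ν).mul (hg.2 _) a

theorem mem_iSup_WS {G : Set (GA C MM)} (hG : ∀ u ∈ G, EV s u) {f : GA C MM}
    (hf : f ∈ Algebra.adjoin k G) : f ∈ ⨆ n, WS s (Algebra.adjoin k G) n := by
  induction hf using Algebra.adjoin_induction with
  | mem u hu =>
    obtain ⟨μ, c, n, rfl, hc⟩ := hG u hu
    exact Submodule.mem_iSup_of_mem n (single_mem_WS (Algebra.subset_adjoin hu) hc)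
  | algebraMap c =>
    have h0 : algebraMap k (GA C MM) c = single 0 (algebraMap k C c) := by
      rw [AddMonoidAlgebra.coe_algebraMap]; rfl
    exact Submodule.mem_iSup_of_mem 0
      (h0 ▸ single_mem_WS (h0 ▸ Subalgebra.algebraMap_mem _ c) (wt_algebraMap c))
  | add a b _ _ ha hb => exact add_mem ha hb
  | mul a b _ _ ha hb =>
    refine Submodule.iSup_induction _ (motive := fun a => a * b ∈ _) ha (fun m a ha => ?_)
      (by simp) fun a a' h h' => by rw [add_mul]; exact add_mem h h'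
    refine Submodule.iSup_induction _ (motive := fun b => a * b ∈ _) hb (fun n b hb => ?_)
      (by simp) fun b b' h h' => by rw [mul_add]; exact add_mem h h'
    exact Submodule.mem_iSup_of_mem _ (mul_mem_WS ha hb)

/-- the ideal of the variety is generated by weight vectors -/
theorem exists_gens [CharZero k] (hr : Red S π Y) (h : EqRed s s' π) (X : Pre k C Y)
    (hX : ∀ u ∈ X.gens, EV s u) : ∃ I : Finset (GA C MM),
      (∀ f ∈ I, f ∈ X.R ∧ InP π f ∧ EV s f) ∧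
      ∀ f ∈ X.R, InP π f → f ∈ Submodule.span X.R (I : Set (GA C MM)) := by
  classical
  have := X.good.noeth
  set P : Ideal X.R := Ideal.span {f : X.R | InP π (f : GA C MM) ∧ EV s (f : GA C MM)} with hP
  obtain ⟨t, ht, htP⟩ := (Submodule.fg_span_iff_fg_span_finset_subset _).1
    (IsNoetherian.noetherian P)
  refine ⟨t.image Subtype.val, fun f hf => ?_, fun f hf hfP => ?_⟩
  · obtain ⟨g, hg, rfl⟩ := Finset.mem_image.1 hf
    exact ⟨g.2, ht hg⟩
  have h1 : (⟨f, hf⟩ : X.R) ∈ P := by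
    obtain ⟨μ, c, rfl, hc⟩ := hfP
    obtain ⟨g, hg, hgf⟩ := (Submodule.mem_iSup_iff_exists_finsupp _ _).1 (mem_iSup_WS hX hf)
    have hS : ∀ n, (g n).coeff μ ∈ S := fun n => hr.le (X.coeff_mem (hg n).1 μ).1
    have h2 : (c : C) = ∑ n ∈ g.support, (g n).coeff μ := by
      have := congrArg (fun z : GA C MM => z.coeff μ) hgf
      simp only [Finsupp.sum, coeff_sum, Finsupp.finsetSum_apply, coeff_single,
        Finsupp.single_eq_same] at this
      exact this.symm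
    have h3 := wt_indep g.support (fun n => pf π ((g n).coeff μ))
      (fun n _ => wt_pf h (hS n) ((hg n).2 μ)) (by
        rw [← hc, show c = ∑ n ∈ g.support, ⟨_, hS n⟩ from Subtype.ext (by
          rw [h2, AddSubmonoidClass.coe_finsetSum]), map_sum]
        exact Finset.sum_congr rfl fun n _ => pf_of_mem π _)
    have h4 : (⟨_, hf⟩ : X.R) = ∑ n ∈ g.support, ⟨cp μ (g n), X.graded _ (hg n).1 μ⟩ := by
      apply Subtype.ext
      rw [AddSubmonoidClass.coe_finsetSum]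
      change single μ (c : C) = _
      rw [h2, ← lsingle_apply (R := C), map_sum]
      rfl
    rw [h4]
    exact Ideal.sum_mem _ fun n hn => Ideal.subset_span
      ⟨⟨μ, ⟨_, hS n⟩, rfl, (pf_of_mem π _).symm.trans (h3 n hn)⟩, μ, _, n, rfl, (hg n).2 μ⟩
  have h2 : (⟨f, hf⟩ : X.R) ∈ Submodule.span X.R (t : Set X.R) := htP ▸ h1
  have h3 := mem_amb.2 ⟨hf, h2⟩
  rw [Ideal.submodule_span_eq, amb_span] at h3
  rwa [Finset.coe_image]

end Weights

/-- a diagonal action on the function field of projective space -/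
theorem exists_action (k : Type) [Field k] (N : ℕ) (w : Fin N → ℤ) :
    ∃ s : kˣ →* (CC k N ≃ₐ[k] CC k N), ∀ j, Wt s (w j) (YC k N j.succ) := by
  let f : kˣ → MvPolynomial (Fin N) k →ₐ[k] MvPolynomial (Fin N) k := fun a =>
    MvPolynomial.aeval fun j => ((a ^ w j : kˣ) : k) • MvPolynomial.X j
  have f1 : f 1 = AlgHom.id _ _ := by ext j; simp [f]
  have fm : ∀ a b, f (a * b) = (f a).comp (f b) := fun a b => by
    ext1 j
    simp only [f, MvPolynomial.aeval_X, AlgHom.comp_apply, map_smul, smul_smul, mul_zpow,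
      Units.val_mul, mul_comm]
  let e : kˣ → MvPolynomial (Fin N) k ≃ₐ[k] MvPolynomial (Fin N) k := fun a =>
    AlgEquiv.ofAlgHom (f a) (f a⁻¹) (by rw [← fm, mul_inv_cancel, f1])
      (by rw [← fm, inv_mul_cancel, f1])
  let g : kˣ → CC k N ≃ₐ[k] CC k N := fun a => IsFractionRing.algEquivOfAlgEquiv (e a)
  have hg : ∀ a p, g a (algebraMap _ _ p) = algebraMap _ _ (f a p) := fun a p =>
    IsFractionRing.algEquivOfAlgEquiv_algebraMap _ _
  have hext : ∀ g₁ g₂ : CC k N ≃ₐ[k] CC k N,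
      (∀ p : MvPolynomial (Fin N) k, g₁ (algebraMap _ _ p) = g₂ (algebraMap _ _ p)) → g₁ = g₂ :=
    fun g₁ g₂ h => AlgEquiv.ext fun x => RingHom.congr_fun
      (IsFractionRing.ringHom_ext (A := MvPolynomial (Fin N) k)
        (f1 := (g₁ : CC k N →+* CC k N)) (f2 := (g₂ : CC k N →+* CC k N)) h) x
  refine ⟨MonoidHom.mk' g fun a b => hext _ _ fun p => ?_, fun j a => ?_⟩
  · rw [AlgEquiv.mul_apply, hg, hg, hg, fm, AlgHom.comp_apply]
  · refine (hg a (MvPolynomial.X j)).trans ?_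
    simp only [f, MvPolynomial.aeval_X]
    exact map_smul (ιC k N) _ _

end Crest.Agent.X262.Res.StC
end
end

-- ▼ part X262/Res/Start
section

/-!
# Row 262, squad RES+ (helper39): the first model, `StartStmt`
-/

set_option autoImplicit false

noncomputable section

namespace Crest.Agent.X262.Res

open AddMonoidAlgebra Crest.Agent.X277.Res Crest.Agent.X277.Res.Gr Crest.Agent.X277.Res.Out
  Crest.Agent.X277.Res.St Crest.Agent.X277.Lef

namespace StC

variable {k C F : Type} [Field k] [Field C] [Algebra k C] [Field F] [Algebra k F] {N : ℕ}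
  {S : Subalgebra k C} {π : S →ₐ[k] F}

open Classical in
/-- the first model -/
def model [CharZero k] (Y : Fin (N + 1) → C) (B : Set (Fin (N + 1))) (hr : Red S π Y)
    (X : Model π Y N) (h1 : X.toPre = pre k Y) (h2 : X.θ = ee 0)
    (h3 : X.hs = Finset.univ.image (YY Y)) (h4 : X.ε = ∏ j, YY Y j)
    (hne : ∀ j, π ⟨Y j, hr.le (Algebra.subset_adjoin ⟨j, rfl⟩)⟩ ≠ 0) : Mod π Y B N where
  toPre := pre k Y
  θ := ee 0
  hs := Finset.univ.image (YY Y)
  ε := eps Y B
  θ_mem := AddSubgroup.mem_zmultiples _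
  hs_mem := by rw [← h1, ← h2, ← h3]; exact X.hs_mem
  St := by rw [← h1, ← h2, ← h3]; exact X.St
  ε_mem := eps_mem
  ε_notP := Finset.prod_induction _ (NotP π) (fun _ _ => G1.NotP_mul) (G1.NotP_chi 0)
    fun j _ => ⟨_, ⟨_, hr.le (Algebra.subset_adjoin ⟨j, rfl⟩)⟩, rfl, hne j⟩
  e0_mem := AddSubgroup.mem_zmultiples _
  Y_mem := YY_mem Y
  Y_dvd := fun j hj => ⟨∏ l ∈ (Finset.univ.filter (· ∈ B)).erase j, YY Y l,
    prod_mem fun l _ => YY_mem Y l,
    (Finset.prod_erase_mul _ _ (Finset.mem_filter.2 ⟨Finset.mem_univ j, hj⟩)).symm⟩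
  dom := by rw [← h1, ← h3]; exact X.dom
  prop := by rw [← h1, ← h2, ← h3]; exact X.prop
  coord := by
    have h := X.coord
    rw [h4, h3] at h
    generalize X.toPre = P at h h1
    subst h1
    intro q hq
    obtain ⟨c⟩ := h q hq
    exact coord_eps (le_loc q) c

open Crest.Agent.X277.Res.Emb in
theorem start_of [CharZero k] {Y : Fin (N + 1) → C} {y : Fin (N + 1) → F}
    (B : Set (Fin (N + 1))) (hr : Red S π Y) (Dt : Dat π Y y) {D : Fin (N + 1) → Der k C MM}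
    (hD : ∀ l, HomDer (-ee 0) (D l)) (hK : ∀ l, Kills (fresh C 1) (D l))
    (hDY : ∀ l j, D l (YY Y j) = if l = j then 1 else 0) {s : kˣ →* (C ≃ₐ[k] C)}
    {s' : kˣ →* (F ≃ₐ[k] F)} (hs : ∀ j, ∃ n, Wt s n (Y j) ∧ Wt s' n (pf π (Y j))) :
    ∃ (X : Mod π Y B N) (I : Finset (GA C MM)), Emb X I ∧ EqRed s s' π ∧ Eqv s X ∧
      (∀ f ∈ I, EV s f) ∧ Iso (gdv y B) (olv y) X ∧ Gud (gdv y B) X I := by
  classical
  have hne : ∀ j, π ⟨Y j, hr.le (Algebra.subset_adjoin ⟨j, rfl⟩)⟩ ≠ 0 := fun j => by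
    rw [← pf_of_mem π, Dt.hY]; exact div_ne_zero (Dt.y_ne j) (Dt.y_ne 0)
  have hY0 : ∀ j, Y j ≠ 0 := fun j h => hne j (by
    rw [show (⟨Y j, _⟩ : S) = 0 from Subtype.ext h, map_zero])
  let X := model Y B hr (St.model Y hr hne D hD hK hDY) rfl rfl rfl rfl hne
  have hE : EqRed s s' π := eqRed_of hr hs
  have hYY : ∀ j, EV s (YY Y j) := fun j => (hs j).elim fun n h => ⟨_, _, n, rfl, h.1⟩
  have hYY' : ∀ u ∈ Finset.univ.image (YY Y), EV s u := fun u hu => by
    obtain ⟨j, -, rfl⟩ := Finset.mem_image.1 hu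
    exact hYY j
  obtain ⟨I, hI, hgen⟩ := exists_gens hr hE (pre k Y) hYY'
  refine ⟨X, I, ⟨fun f hf => ⟨(hI f hf).1, (hI f hf).2.1⟩,
      fun f hf hP => ⟨1, one_mem _, G1.NotP_chi 0, by rw [one_mul]; exact hgen f hf hP⟩,
      fun n hn => ?_, fun μ hμ => ?_⟩, hE,
    ⟨hYY', hYY', show EV s (eps Y B) from EV.prod _ fun j _ => hYY j⟩, fun f hf => (hI f hf).2.2,
    fun q hq hv => ⟨fun μ hμ => ?_, fun c hc => ?_⟩, fun q hq hv => ?_⟩
  · obtain rfl : n = 0 := Nat.lt_one_iff.1 hn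
    have := YY_mem (k := k) Y 0
    rwa [YY, hr.y0] at this
  · refine ⟨μ 0, ?_⟩
    ext n
    by_cases hn : n = 0
    · simp [ee, hn]
    · rw [hμ n (Nat.one_le_iff_ne_zero.2 hn)]; simp [ee, hn]
  · obtain ⟨i, -, hi, -⟩ := hv
    obtain ⟨e, he, -⟩ := StB.exists_unit (pre k Y).good (u_YY hi) hμ
    exact ⟨e, he.mem, he.nm, he.hom⟩
  · simp only [olv, Algebra.mem_iInf]
    rintro i ψ ⟨hi, hψ⟩
    rw [← pf_coe]
    exact (pf_mem Dt hi hψ hc).1
  · obtain ⟨i, ψ, hi, hψ, hsn⟩ := hv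
    obtain ⟨c₀⟩ := X.coord q hq
    obtain ⟨c, A, h1, h2⟩ := exists_good (I := (I : Set (GA C MM))) Dt hr.y0 hY0 hi hψ hsn
      (ε₀ := ⟨_, X.ε_mem⟩) c₀ (fun f hf => ⟨(hI f hf).1, (hI f hf).2.1⟩) hgen
    obtain ⟨J, j1, j2, j3, j4, j5⟩ := StB.exists_ctr c A h1 h2
    exact ⟨fun f hf => not_nz Dt hi hψ hf, J, j1, j2, j3, j4, fun l hl =>
      Submodule.span_mono (fun f hf => And.intro (hI f hf).1 (hI f hf).2.1) (j5 l hl)⟩

end StC

open StC Crest.Agent.X277.Res.Emb in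
/-- **the first model** -/
theorem startStmt (k : Type) [Field k] [CharZero k] : StartStmt k := by
  classical
  intro F _ _ N y B s' hy hF hw
  let π0 : (Algebra.adjoin k (Set.range (YC k N))) →ₐ[k] F :=
    (MvPolynomial.aeval fun j : Fin N => y j.succ / y 0).comp
      (((AlgEquiv.ofInjective (ιC k N) ιC_inj).trans (Subalgebra.equivOfEq _ _ range_ιC)).symm :
        _ →ₐ[k] _)
  have hπ0 : ∀ p : MvPolynomial (Fin N) k, pf π0 (ιC k N p) =
      MvPolynomial.aeval (fun j : Fin N => y j.succ / y 0) p := by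
    intro p
    have hp : ιC k N p ∈ Algebra.adjoin k (Set.range (YC k N)) := by
      rw [← range_ιC]; exact ⟨p, rfl⟩
    rw [pf_of_mem π0 hp]
    have : (⟨_, hp⟩ : Algebra.adjoin k (Set.range (YC k N))) =
        ((AlgEquiv.ofInjective (ιC k N) ιC_inj).trans (Subalgebra.equivOfEq _ _ range_ιC)) p := rfl
    rw [this]
    exact congrArg (MvPolynomial.aeval fun j : Fin N => y j.succ / y 0)
      (((AlgEquiv.ofInjective (ιC k N) ιC_inj).trans
        (Subalgebra.equivOfEq _ _ range_ιC)).symm_apply_apply p)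
  have hY : ∀ j, pf π0 (YC k N j) = y j / y 0 := by
    intro j
    refine Fin.cases ?_ (fun j => ?_) j
    · rw [div_self (hy 0)]; exact pf_one π0
    · exact (hπ0 (MvPolynomial.X j)).trans (MvPolynomial.aeval_X _ _)
  have hch : ∀ a ∈ chart k y 0, ∃ b ∈ Algebra.adjoin k (Set.range (YC k N)), pf π0 b = a := by
    intro a ha
    have : chart k y 0 ≤ π0.range := Algebra.adjoin_le (by
      rintro _ ⟨j, rfl⟩
      exact ⟨⟨YC k N j, Algebra.subset_adjoin ⟨j, rfl⟩⟩, (pf_of_mem π0 _).symm.trans (hY j)⟩)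
    obtain ⟨b, rfl⟩ := this ha
    exact ⟨b, b.2, pf_coe π0 b⟩
  have hr : Red (Sl π0) (pl π0) (YC k N) := by
    refine ⟨rfl, le_Sl π0, pl_surjective π0 fun f => ?_, fun c hc => ?_, fun c => ?_⟩
    · obtain ⟨a, ha, c, hc, hc0, rfl⟩ := hF f
      obtain ⟨a', ha', rfl⟩ := hch a ha
      obtain ⟨c', hc', rfl⟩ := hch c hc
      exact ⟨a', ha', c', hc', hc0, by field_simp⟩
    · exact inv_mem_Sl π0 c.2 (by rwa [pf_coe])
    · obtain ⟨b, hb, h1, h2⟩ := (mem_Sl π0).1 c.2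
      refine ⟨⟨b, le_Sl π0 hb⟩, hb, ?_, h2⟩
      rwa [← pf_of_mem (pl π0), pf_pl π0 hb]
  have hY1 : ∀ j, pf (pl π0) (YC k N j) = y j / y 0 := fun j => by
    rw [pf_pl π0 (Algebra.subset_adjoin ⟨j, rfl⟩), hY]
  have hY' : ∀ j, pl π0 ⟨YC k N j, hr.le (Algebra.subset_adjoin ⟨j, rfl⟩)⟩ = y j / y 0 :=
    fun j => by rw [← pf_of_mem (pl π0), hY1]
  obtain ⟨D, hD, hK, hDY⟩ := exists_ders (k := k) (N := N)
  choose a ha using hw
  obtain ⟨s, hs⟩ := exists_action k N fun j => a j.succ - a 0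
  have hs' : ∀ j, Wt s (a j - a 0) (YC k N j) := fun j => by
    refine Fin.cases ?_ (fun j => hs j) j
    rw [sub_self]; exact wt_one
  obtain ⟨X, I, h1, h2⟩ := start_of (s' := s') B hr ⟨hr.le, hr.inv, hY1, hy⟩ hD hK hDY fun j =>
    ⟨_, hs' j, by rw [hY1]; exact (ha j).div (ha 0)⟩
  exact ⟨CC k N, inferInstance, inferInstance, _, _, _, hr, X, I, s, h1, hY', h2⟩

end Crest.Agent.X262.Res
end
end

-- ▼ part X262/Res/Main

/-!
# Row 262, squad RES+: strong equivariant log resolution (helper64)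
-/

namespace Crest.Agent.X262.Res

/-- **strong, torus-equivariant log resolution of singularities** -/
theorem plusStmt (k : Type) [Field k] [IsAlgClosed k] [CharZero k] : PlusStmt k :=
  plusStmt_of k (startStmt k) (centreEV k)

end Crest.Agent.X262.Res
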